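import Vale.Agent.P219.CH.Cert.Moments

/-!
P219: the sixth and eighth moments of the cosine with an axis over the ball.
-/

namespace Vale.Agent.P219.CH.Gen.Ten

open MeasureTheory Set Vale.Agent.P219.CH.Cert
open scoped RealInnerProductSpace

noncomputable section

variable {n : ℕ}

/-- A mixed moment. -/
def mom (i j : Fin n) (a b : ℕ) : ℝ :=
  ∫ v in Metric.ball (0 : E n) 1, cosc i v ^ a * cosc j v ^ b

lemma integrableOn_mom (i j : Fin n) (a b : ℕ) :
    IntegrableOn (fun v => cosc i v ^ a * cosc j v ^ b) (Metric.ball (0 : E n) 1) :=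
  integrableOn_ball ((measurable_pow_cosc i a).mul (measurable_pow_cosc j b)) (C := 1) fun v => by
    rw [abs_mul]; exact mul_le_one₀ (bound_pow_cosc i a v) (abs_nonneg _) (bound_pow_cosc j b v)

lemma integral_axis (i k : Fin n) (N : ℕ) :
    ∫ v in Metric.ball (0 : E n) 1, cosc i v ^ N =
      ∫ v in Metric.ball (0 : E n) 1, cosc k v ^ N := by
  rw [← integral_inner_eq k (w := EuclideanSpace.single i (1 : ℝ)) (by simp) fun x => x ^ N]
  simp [cosc, EuclideanSpace.inner_single_left]

/-- Moments in the plane of two axes are those of one axis. -/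
lemma mom_plane (k : Fin n) {i j : Fin n} (hij : i ≠ j) (N : ℕ) (t : ℝ) :
    ∫ v in Metric.ball (0 : E n) 1,
        ((cosc i v + t * cosc j v) ^ (2 * N) + (cosc i v - t * cosc j v) ^ (2 * N)) =
      2 * (1 + t ^ 2) ^ N * ∫ v in Metric.ball (0 : E n) 1, cosc k v ^ (2 * N) := by
  have one : ∀ t : ℝ, IntegrableOn (fun v => (cosc i v + t * cosc j v) ^ (2 * N))
      (Metric.ball (0 : E n) 1) ∧
      ∫ v in Metric.ball (0 : E n) 1, (cosc i v + t * cosc j v) ^ (2 * N) =
        (1 + t ^ 2) ^ N * ∫ v in Metric.ball (0 : E n) 1, cosc k v ^ (2 * N) := fun t => by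
    set u : E n := EuclideanSpace.single i (1 : ℝ) + t • EuclideanSpace.single j (1 : ℝ) with hu
    have hn2 : ‖u‖ ^ 2 = 1 + t ^ 2 := by
      rw [hu, norm_add_sq_real]
      simp [norm_smul, inner_smul_right, EuclideanSpace.inner_single_left, hij, sq_abs]
    have e : ∀ v : E n, ⟪u, v⟫ / ‖v‖ = cosc i v + t * cosc j v := fun v => by
      simp only [hu, inner_add_left, real_inner_smul_left, EuclideanSpace.inner_single_left, cosc,
        map_one, one_mul]
      ring
    have h := integral_inner_pow k u (2 * N) (by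
      intro h; rw [h, norm_zero] at hn2; nlinarith [sq_nonneg t])
    simp only [e] at h
    refine ⟨integrableOn_ball (((measurable_cosc i).add
      ((measurable_cosc j).const_mul t)).pow_const _) (C := (1 + |t|) ^ (2 * N)) fun v => ?_, ?_⟩
    · rw [abs_pow]
      refine pow_le_pow_left₀ (abs_nonneg _) ((abs_add_le _ _).trans ?_) _
      rw [abs_mul]
      exact add_le_add (abs_cosc_le i v) (mul_le_of_le_one_right (abs_nonneg t) (abs_cosc_le j v))
    · rw [h, pow_mul, hn2]
  have hneg : ∀ v : E n, cosc i v - t * cosc j v = cosc i v + -t * cosc j v := fun v => by ring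
  simp only [hneg]
  rw [integral_add (one t).1 (one (-t)).1, (one t).2, (one (-t)).2, neg_sq]
  ring

lemma mom_zero (i j : Fin n) (a : ℕ) :
    mom i j a 0 = ∫ v in Metric.ball (0 : E n) 1, cosc i v ^ a := by simp [mom]

/-- The moments of order six in a plane. -/
lemma plane_six (k : Fin n) {i j : Fin n} (hij : i ≠ j) (t : ℝ) :
    mom i j 6 0 + 15 * t ^ 2 * mom i j 4 2 + 15 * t ^ 4 * mom i j 2 4 + t ^ 6 * mom i j 0 6 =
      (1 + t ^ 2) ^ 3 * ∫ v in Metric.ball (0 : E n) 1, cosc k v ^ 6 := by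
  have h := mom_plane k hij 3 t
  have e : ∀ v : E n, (cosc i v + t * cosc j v) ^ (2 * 3) + (cosc i v - t * cosc j v) ^ (2 * 3) =
      2 * (cosc i v ^ 6 * cosc j v ^ 0) + 30 * t ^ 2 * (cosc i v ^ 4 * cosc j v ^ 2) +
        30 * t ^ 4 * (cosc i v ^ 2 * cosc j v ^ 4) +
        2 * t ^ 6 * (cosc i v ^ 0 * cosc j v ^ 6) := fun v => by ring
  simp only [e] at h
  have I := integrableOn_mom i j
  rw [integral_add ((((I 6 0).const_mul _).fun_add ((I 4 2).const_mul _)).fun_add
      ((I 2 4).const_mul _)) ((I 0 6).const_mul _),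
    integral_add (((I 6 0).const_mul _).fun_add ((I 4 2).const_mul _)) ((I 2 4).const_mul _),
    integral_add ((I 6 0).const_mul _) ((I 4 2).const_mul _)] at h
  simp only [integral_const_mul] at h
  norm_num only at h
  simp only [mom]
  linarith

/-- The moments of order eight in a plane. -/
lemma plane_eight (k : Fin n) {i j : Fin n} (hij : i ≠ j) (t : ℝ) :
    mom i j 8 0 + 28 * t ^ 2 * mom i j 6 2 + 70 * t ^ 4 * mom i j 4 4 +
        28 * t ^ 6 * mom i j 2 6 + t ^ 8 * mom i j 0 8 =
      (1 + t ^ 2) ^ 4 * ∫ v in Metric.ball (0 : E n) 1, cosc k v ^ 8 := by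
  have h := mom_plane k hij 4 t
  have e : ∀ v : E n, (cosc i v + t * cosc j v) ^ (2 * 4) + (cosc i v - t * cosc j v) ^ (2 * 4) =
      2 * (cosc i v ^ 8 * cosc j v ^ 0) + 56 * t ^ 2 * (cosc i v ^ 6 * cosc j v ^ 2) +
        140 * t ^ 4 * (cosc i v ^ 4 * cosc j v ^ 4) +
        56 * t ^ 6 * (cosc i v ^ 2 * cosc j v ^ 6) +
        2 * t ^ 8 * (cosc i v ^ 0 * cosc j v ^ 8) := fun v => by ring
  simp only [e] at h
  have I := integrableOn_mom i j
  rw [integral_add (((((I 8 0).const_mul _).fun_add ((I 6 2).const_mul _)).fun_add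
      ((I 4 4).const_mul _)).fun_add ((I 2 6).const_mul _)) ((I 0 8).const_mul _),
    integral_add ((((I 8 0).const_mul _).fun_add ((I 6 2).const_mul _)).fun_add
      ((I 4 4).const_mul _)) ((I 2 6).const_mul _),
    integral_add (((I 8 0).const_mul _).fun_add ((I 6 2).const_mul _)) ((I 4 4).const_mul _),
    integral_add ((I 8 0).const_mul _) ((I 6 2).const_mul _)] at h
  simp only [integral_const_mul] at h
  norm_num only at h
  simp only [mom]
  linarith

/-- Recursion for the moments. -/
lemma cosc_step (i : Fin n) (a : ℕ) {A B : ℝ} (hA : mom i i a 2 = A)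
    (hB : ∀ j, i ≠ j → mom i j a 2 = B) :
    ∫ v in Metric.ball (0 : E n) 1, cosc i v ^ a = A + ((n : ℝ) - 1) * B := by
  have hsum : ∑ j, mom i j a 2 = ∫ v in Metric.ball (0 : E n) 1, cosc i v ^ a := by
    simp only [mom]
    rw [← integral_finsetSum _ fun j _ => integrableOn_mom i j a 2]
    refine integral_congr_ae ?_
    have : Nonempty (Fin n) := ⟨i⟩
    filter_upwards [ae_restrict_of_ae (Measure.ae_ne volume (0 : E n))] with v hv
    simp only [← Finset.mul_sum, sum_cosc_sq hv, mul_one]
  rw [← hsum, ← Finset.add_sum_erase _ _ (Finset.mem_univ i), hA,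
    Finset.sum_congr rfl fun j hj => hB j (Finset.ne_of_mem_erase hj).symm]
  simp only [Finset.sum_const, Finset.card_erase_of_mem (Finset.mem_univ i), Finset.card_univ,
    Fintype.card_fin, nsmul_eq_mul]
  rw [Nat.cast_sub (by have := i.pos; omega), Nat.cast_one]

theorem cosc_six (hn : 0 < n) :
    ∫ v in Metric.ball (0 : E n) 1, cosc ⟨0, hn⟩ v ^ 6 =
      15 * omega n / (n * (n + 2) * (n + 4)) := by
  set i : Fin n := ⟨0, hn⟩
  have h := cosc_step i 4 (A := ∫ v in Metric.ball (0 : E n) 1, cosc i v ^ 6)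
    (B := (∫ v in Metric.ball (0 : E n) 1, cosc i v ^ 6) / 5)
    (by simp only [mom, ← pow_add])
    (fun j hij => by
      have h1 := plane_six i hij 1
      have h2 := plane_six i hij 2
      have h3 : mom i j 0 6 = ∫ v in Metric.ball (0 : E n) 1, cosc i v ^ 6 := by
        simp only [mom, pow_zero, one_mul]; exact integral_axis j i 6
      rw [mom_zero, h3] at h1 h2
      norm_num at h1 h2
      linarith)
  rw [show (∫ v in Metric.ball (0 : E n) 1, cosc i v ^ 4) = 3 * omega n / (n * (n + 2)) from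
    cosc_four hn] at h
  have hn' : (0 : ℝ) < n := Nat.cast_pos.2 hn
  rw [eq_div_iff (by positivity)]
  field_simp at h
  linarith

theorem cosc_eight (hn : 0 < n) :
    ∫ v in Metric.ball (0 : E n) 1, cosc ⟨0, hn⟩ v ^ 8 =
      105 * omega n / (n * (n + 2) * (n + 4) * (n + 6)) := by
  set i : Fin n := ⟨0, hn⟩
  have h := cosc_step i 6 (A := ∫ v in Metric.ball (0 : E n) 1, cosc i v ^ 8)
    (B := (∫ v in Metric.ball (0 : E n) 1, cosc i v ^ 8) / 7)
    (by simp only [mom, ← pow_add])
    (fun j hij => by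
      have h1 := plane_eight i hij 1
      have h2 := plane_eight i hij 2
      have h4 := plane_eight i hij 3
      have h3 : mom i j 0 8 = ∫ v in Metric.ball (0 : E n) 1, cosc i v ^ 8 := by
        simp only [mom, pow_zero, one_mul]; exact integral_axis j i 8
      rw [mom_zero, h3] at h1 h2 h4
      norm_num at h1 h2 h4
      linarith)
  rw [show (∫ v in Metric.ball (0 : E n) 1, cosc i v ^ 6) =
    15 * omega n / (n * (n + 2) * (n + 4)) from cosc_six hn] at h
  have hn' : (0 : ℝ) < n := Nat.cast_pos.2 hn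
  rw [eq_div_iff (by positivity)]
  field_simp at h
  linarith

end

end Vale.Agent.P219.CH.Gen.Ten
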