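import Vale.Agent.P219.CH.Gen.Cert.Ten.Sum

/-!
P219, certificate in dimension ten: the regularised kernel loses at most a multiple of `σ`.
-/

namespace Vale.Agent.P219.CH.Gen.Ten

noncomputable section

/-- The regularised kernel times `252000 R⁶`; `τ = r² / R²`, `u` the positive inward cosine. -/
def Treg (r R τ u d m : ℝ) : ℝ :=
  5736 * R ^ 6 + (1 - d ^ 2) *
    (7000 * (1 - τ * u ^ 2) + R ^ 2 * (4830 - 4492 * (τ * u ^ 2)) + 2435 * R ^ 4 +
      2 * τ * (-21000 + 28000 * (τ * u ^ 2) - R ^ 2 * (9660 - 13476 * (τ * u ^ 2)) - 2435 * R ^ 4) -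
      2 * (τ * u ^ 2) * (7000 + 4492 * R ^ 2)) +
  (8 + d ^ 2) *
    (7000 * (1 - τ * u ^ 2) + R ^ 2 * (4830 - 4492 * (τ * u ^ 2)) + 2435 * R ^ 4) -
  2 * τ * u * (7000 + 4492 * R ^ 2) * |d| * m -
  9 * r * d * (7000 * (1 - τ * u ^ 2) + R ^ 2 * (4830 - 4492 * (τ * u ^ 2)) + 2435 * R ^ 4)

/-- The first order loss. -/
def loss (R d : ℝ) : ℝ :=
  (1 - d ^ 2) * (-49000 - 21108 * R ^ 2 + 4870 * R ^ 4) + (8 + d ^ 2) * (7000 + 4492 * R ^ 2) +
    9 * R * max d 0 * (1217 * R ^ 4 - 7000 - 4492 * R ^ 2)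

lemma loss_ge {R d : ℝ} (hR : 0 ≤ R) (hd : |d| ≤ 1) :
    -(100800 * R * max d 0) ≤ loss R d ∧ (R ≤ 1 / 4 ∨ 5 / 2 ≤ R → 0 ≤ loss R d) := by
  have hd2 : d ^ 2 ≤ 1 := (sq_le_one_iff_abs_le_one d).2 hd
  set D := max d 0 with hD
  have hD0 : 0 ≤ D := le_max_right _ _
  have hDd : D ^ 2 ≤ d ^ 2 := by
    rcases le_total d 0 with h | h
    · rw [hD, max_eq_right h]; nlinarith [sq_nonneg d]
    · rw [hD, max_eq_left h]
  have h1 := mul_nonneg (sub_nonneg.2 hd2) (pow_nonneg hR 4)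
  have h2 := sq_nonneg R
  have h3 := mul_nonneg (sq_nonneg d) (sq_nonneg R)
  have hb : 7000 + 56000 * d ^ 2 ≤
      (1 - d ^ 2) * (-49000 - 21108 * R ^ 2 + 4870 * R ^ 4) +
        (8 + d ^ 2) * (7000 + 4492 * R ^ 2) := by nlinarith
  have hq : -11200 ≤ 1217 * R ^ 4 - 7000 - 4492 * R ^ 2 := by
    nlinarith [sq_nonneg (1217 * R ^ 2 - 2246)]
  have hRD : 0 ≤ 9 * R * D := by positivity
  refine ⟨?_, fun h => ?_⟩
  · have := mul_le_mul_of_nonneg_left hq hRD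
    unfold loss
    nlinarith [sq_nonneg d]
  · rcases h with h | h
    · have hR2 : R ^ 2 ≤ 1 / 16 := by nlinarith
      have h4 : 9 * R * D * (7000 + 4492 * R ^ 2) ≤ 16400 * D := by
        have := mul_le_mul h (show 7000 + 4492 * R ^ 2 ≤ 7281 by linarith) (by positivity)
          (by norm_num)
        have := mul_le_mul_of_nonneg_left this (show 0 ≤ 9 * D by linarith)
        linarith
      have h5 : 16400 * D ≤ 7000 + 56000 * d ^ 2 := by nlinarith [sq_nonneg (56000 * D - 8200)]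
      have : 0 ≤ 9 * R * D * (1217 * R ^ 4) := by positivity
      unfold loss
      linarith
    · have hR2 : 25 / 4 ≤ R ^ 2 := by nlinarith
      have hq' : 0 ≤ 1217 * R ^ 4 - 7000 - 4492 * R ^ 2 := by
        nlinarith [mul_le_mul_of_nonneg_left hR2 (sq_nonneg R)]
      have := mul_nonneg hRD hq'
      unfold loss
      linarith [sq_nonneg d]

lemma reg_ge {r R τ u d m σ : ℝ} (hr : 0 ≤ r) (hR : r ≤ R) (hRσ : R ≤ r + σ)
    (hτ : τ * R ^ 2 = r ^ 2) (hτ0 : 0 ≤ τ) (hτ1 : τ ≤ 1) (hu : 0 ≤ u) (hu1 : u ≤ 1)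
    (hd : |d| ≤ 1) (hm0 : 0 ≤ m) :
    T R u d m ≤ Treg r R τ u d m + 201600 * σ * (max d 0 * u ^ 2) ∧
      (R ≤ 1 / 4 ∨ 5 / 2 ≤ R → T R u d m ≤ Treg r R τ u d m) := by
  have hR0 : 0 ≤ R := hr.trans hR
  have hd2 : d ^ 2 ≤ 1 := (sq_le_one_iff_abs_le_one d).2 hd
  have hu2 : u ^ 2 ≤ 1 := pow_le_one₀ hu hu1
  obtain ⟨e, he, rfl⟩ : ∃ e, 0 ≤ e ∧ τ = 1 - e := ⟨1 - τ, by linarith, by ring⟩
  have hx : (1 - e) * u ^ 2 ≤ 1 := mul_le_one₀ hτ1 (sq_nonneg u) hu2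
  set W := 7000 * (1 - (1 - e) * u ^ 2) + R ^ 2 * (4830 - 4492 * ((1 - e) * u ^ 2)) +
    2435 * R ^ 4 with hW
  have hW0 : 2435 * R ^ 4 ≤ W := by
    have := mul_le_mul_of_nonneg_left hx (sq_nonneg R)
    nlinarith [sq_nonneg R]
  have hR4 : 0 ≤ R ^ 4 := by positivity
  -- the linear term
  have hlin : 9 * r * d * W ≤
      9 * R * max d 0 * (7000 * (1 - u ^ 2) + R ^ 2 * (4830 - 4492 * u ^ 2) + 2435 * R ^ 4) -
        e * u ^ 2 * (9 * R * max d 0 * (1217 * R ^ 4 - 7000 - 4492 * R ^ 2)) := by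
    rcases le_total d 0 with h | h
    · rw [max_eq_right h]
      have : 9 * r * d * W ≤ 0 :=
        mul_nonpos_of_nonpos_of_nonneg (mul_nonpos_of_nonneg_of_nonpos (by linarith) h)
          (by linarith)
      linarith
    · rw [max_eq_left h]
      have hRr : e * R ≤ 2 * (R - r) := by
        rcases hR0.eq_or_lt with h0 | h0
        · rw [← h0] at hR ⊢; linarith
        · refine le_of_mul_le_mul_left ?_ h0
          nlinarith [sq_nonneg (R - r)]
      have h1 : e * R * (2435 * R ^ 4) ≤ 2 * (R - r) * W :=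
        mul_le_mul hRr hW0 (by linarith) (by linarith)
      have h2 : 0 ≤ e * R * (1 - u ^ 2) * R ^ 4 :=
        mul_nonneg (mul_nonneg (mul_nonneg he hR0) (sub_nonneg.2 hu2)) hR4
      have h3 : 0 ≤ e * R * R ^ 4 * u ^ 2 := by positivity
      have h4 : r * W ≤ R * (7000 * (1 - u ^ 2) + R ^ 2 * (4830 - 4492 * u ^ 2) + 2435 * R ^ 4) -
          e * u ^ 2 * (R * (1217 * R ^ 4 - 7000 - 4492 * R ^ 2)) := by
        simp only [hW] at h1 ⊢
        nlinarith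
      have := mul_le_mul_of_nonneg_left h4 (show 0 ≤ 9 * d by linarith)
      linarith
  -- the diagonal terms
  have hdiag : (1 - d ^ 2) * (e * u ^ 2 * (-49000 - 21108 * R ^ 2 + 4870 * R ^ 4) +
      (-42000 - 19320 * R ^ 2 - 4870 * R ^ 4) * (e * (u ^ 2 - 1))) ≤
      (1 - d ^ 2) * (e * (42000 + 19320 * R ^ 2 + 4870 * R ^ 4 -
        u ^ 2 * (91000 + 40428 * R ^ 2)) + 2 * e ^ 2 * u ^ 2 * (28000 + 13476 * R ^ 2)) := by
    refine mul_le_mul_of_nonneg_left ?_ (sub_nonneg.2 hd2)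
    have : 0 ≤ 2 * e ^ 2 * u ^ 2 * (28000 + 13476 * R ^ 2) := by positivity
    nlinarith
  have hdiag' : 0 ≤ (1 - d ^ 2) *
      ((-42000 - 19320 * R ^ 2 - 4870 * R ^ 4) * (e * (u ^ 2 - 1))) := by
    refine mul_nonneg (sub_nonneg.2 hd2) ?_
    have := sq_nonneg R
    exact mul_nonneg_of_nonpos_of_nonpos (by linarith)
      (mul_nonpos_of_nonneg_of_nonpos he (by linarith))
  have hroot : 0 ≤ 2 * e * u * (7000 + 4492 * R ^ 2) * |d| * m := by positivity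
  have key : T R u d m + e * u ^ 2 * loss R d ≤ Treg r R (1 - e) u d m := by
    unfold T Treg loss
    simp only [hW] at hlin
    linarith
  obtain ⟨l1, l2⟩ := loss_ge hR0 hd
  have hev : 0 ≤ e * u ^ 2 := by positivity
  refine ⟨?_, fun h => ?_⟩
  · have h1 := mul_le_mul_of_nonneg_left l1 hev
    have hRr : e * R ≤ 2 * σ := by
      rcases hR0.eq_or_lt with h0 | h0
      · rw [← h0] at hR hRσ ⊢; linarith
      · refine le_of_mul_le_mul_left ?_ h0
        nlinarith [mul_le_mul_of_nonneg_left hRσ h0.le, mul_nonneg hr (sub_nonneg.2 hR)]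
    have h2 := mul_le_mul_of_nonneg_right hRr
      (show 0 ≤ 100800 * (max d 0 * u ^ 2) by positivity)
    linarith
  · have := mul_nonneg hev (l2 h)
    linarith

end

end Vale.Agent.P219.CH.Gen.Ten
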