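import Mathlib

/-!
P219, certificate in dimension ten: the symmetrised kernel on `c = d`.
-/

namespace Vale.Agent.P219.CH.Gen.Ten

noncomputable section

/-- The symmetrised kernel at `c = d = h`. -/
def diag (r h : ℝ) : ℝ :=
  42000 + 14000 * h ^ 2 - 56000 * h ^ 4 - 126000 * r * h + 126000 * r * h ^ 3 + 48300 * r ^ 2 -
    24248 * r ^ 2 * h ^ 2 - 17968 * r ^ 2 * h ^ 4 - 86940 * r ^ 3 * h + 80856 * r ^ 3 * h ^ 3 +
    34090 * r ^ 4 + 9740 * r ^ 4 * h ^ 2 - 43830 * r ^ 5 * h + 11472 * r ^ 6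

/-- The leading coefficient in `e = 1 - h²`, at `h = 1`. -/
def dA0 (t : ℝ) : ℝ :=
  6083 * t ^ 2 - 6084 * t ^ 3 + 43830 * t ^ 4 - 43830 * t ^ 5 + 11472 * t ^ 6

/-- The linear coefficient. -/
def dA1 (t : ℝ) : ℝ := 94876 - 126000 * t + 72350 * t ^ 2 - 86940 * t ^ 3 + 34090 * t ^ 4

/-- The quadratic coefficient. -/
def dA2 (t : ℝ) : ℝ := 162909 - 126000 * t + 48299 * t ^ 2

lemma dA2_pos (t : ℝ) : 0 < dA2 t := by
  unfold dA2; nlinarith [sq_nonneg (48299 * t - 63000)]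

lemma dA0_nonneg (t : ℝ) : 0 ≤ dA0 t := by
  have h : 0 ≤ 6083 - 6084 * t + 43830 * t ^ 2 - 43830 * t ^ 3 + 11472 * t ^ 4 := by
    nlinarith [sq_nonneg (t ^ 2 - 191 / 100 * t + 2 / 25), sq_nonneg (t - 19 / 10),
      sq_nonneg (t - 1 / 10), sq_nonneg (t * (t - 19 / 10))]
  have e : dA0 t = t ^ 2 * (6083 - 6084 * t + 43830 * t ^ 2 - 43830 * t ^ 3 + 11472 * t ^ 4) := by
    unfold dA0; ring
  rw [e]; exact mul_nonneg (sq_nonneg t) h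


lemma dA1_low {t : ℝ} (h1 : 0 ≤ t) (h2 : t ≤ 17 / 20) : 0 ≤ dA1 t := by
  obtain ⟨x, hx, ex⟩ : ∃ x : ℝ, 0 ≤ x ∧ x = t - 0 := ⟨_, sub_nonneg.2 h1, rfl⟩
  obtain ⟨y, hy, ey⟩ : ∃ y : ℝ, 0 ≤ y ∧ y = 17 / 20 - t := ⟨_, sub_nonneg.2 h2, rfl⟩
  refine nonneg_of_mul_nonneg_right (a := (83521 : ℝ)) ?_ (by norm_num)
  have key : (83521 : ℝ) * (dA1 t) =
      15180160000 * x ^ 0 * y ^ 4 +
      43584640000 * x ^ 1 * y ^ 3 +
      48036620000 * x ^ 2 * y ^ 2 +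
      17497235600 * x ^ 3 * y ^ 1 +
      712326490 * x ^ 4 * y ^ 0 := by
    subst ex ey; unfold dA1; ring
  rw [key]; positivity

lemma disc0 {t : ℝ} (h1 : 17 / 20 ≤ t) (h2 : t ≤ 59 / 40) : 0 ≤ 4 * dA0 t * dA2 t - dA1 t ^ 2 := by
  obtain ⟨x, hx, ex⟩ : ∃ x : ℝ, 0 ≤ x ∧ x = t - 17 / 20 := ⟨_, sub_nonneg.2 h1, rfl⟩
  obtain ⟨y, hy, ey⟩ : ∃ y : ℝ, 0 ≤ y ∧ y = 59 / 40 - t := ⟨_, sub_nonneg.2 h2, rfl⟩
  refine nonneg_of_mul_nonneg_right (a := (152587890625 : ℝ)) ?_ (by norm_num)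
  have key : (152587890625 : ℝ) * (4 * dA0 t * dA2 t - dA1 t ^ 2) =
      19884383549919192087552 * x ^ 0 * y ^ 8 +
      188107825780267722326016 * x ^ 1 * y ^ 7 +
      726210793525925029190656 * x ^ 2 * y ^ 6 +
      1506651595158055115200512 * x ^ 3 * y ^ 5 +
      1837323380248962223424640 * x ^ 4 * y ^ 4 +
      1342743834862397800998912 * x ^ 5 * y ^ 3 +
      570112728609214941989056 * x ^ 6 * y ^ 2 +
      127332948326714454239616 * x ^ 7 * y ^ 1 +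
      11465778851983042010652 * x ^ 8 * y ^ 0 := by
    subst ex ey; unfold dA1 dA0 dA2; ring
  rw [key]; positivity

lemma disc1 {t : ℝ} (h1 : 59 / 40 ≤ t) (h2 : t ≤ 143 / 80) : 0 ≤ 4 * dA0 t * dA2 t - dA1 t ^ 2 := by
  obtain ⟨x, hx, ex⟩ : ∃ x : ℝ, 0 ≤ x ∧ x = t - 59 / 40 := ⟨_, sub_nonneg.2 h1, rfl⟩
  obtain ⟨y, hy, ey⟩ : ∃ y : ℝ, 0 ≤ y ∧ y = 143 / 80 - t := ⟨_, sub_nonneg.2 h2, rfl⟩
  refine nonneg_of_mul_nonneg_right (a := (152587890625 : ℝ)) ?_ (by norm_num)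
  have key : (152587890625 : ℝ) * (4 * dA0 t * dA2 t - dA1 t ^ 2) =
      2935239386107658754726912 * x ^ 0 * y ^ 8 +
      18924255247472454914052096 * x ^ 1 * y ^ 7 +
      50271813404668031337051136 * x ^ 2 * y ^ 6 +
      70067701457689562355919872 * x ^ 3 * y ^ 5 +
      53483426264891221134771840 * x ^ 4 * y ^ 4 +
      20740539125916128493795072 * x ^ 5 * y ^ 3 +
      3149525733400523363926336 * x ^ 6 * y ^ 2 +
      317651218062867042712896 * x ^ 7 * y ^ 1 +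
      210303120732147551941212 * x ^ 8 * y ^ 0 := by
    subst ex ey; unfold dA1 dA0 dA2; ring
  rw [key]; positivity

lemma disc2 {t : ℝ} (h1 : 143 / 80 ≤ t) (h2 : t ≤ 21 / 10) : 0 ≤ 4 * dA0 t * dA2 t - dA1 t ^ 2 := by
  obtain ⟨x, hx, ex⟩ : ∃ x : ℝ, 0 ≤ x ∧ x = t - 143 / 80 := ⟨_, sub_nonneg.2 h1, rfl⟩
  obtain ⟨y, hy, ey⟩ : ∃ y : ℝ, 0 ≤ y ∧ y = 21 / 10 - t := ⟨_, sub_nonneg.2 h2, rfl⟩
  refine nonneg_of_mul_nonneg_right (a := (152587890625 : ℝ)) ?_ (by norm_num)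
  have key : (152587890625 : ℝ) * (4 * dA0 t * dA2 t - dA1 t ^ 2) =
      210303120732147551941212 * x ^ 0 * y ^ 8 +
      3047198713651493788346496 * x ^ 1 * y ^ 7 +
      22256358202520910583361536 * x ^ 2 * y ^ 6 +
      84586865445611423555100672 * x ^ 3 * y ^ 5 +
      181646733172163824246947840 * x ^ 4 * y ^ 4 +
      231080771205681674358095872 * x ^ 5 * y ^ 3 +
      173512454772517052650356736 * x ^ 6 * y ^ 2 +
      71328682032608862898487296 * x ^ 7 * y ^ 1 +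
      12417828990278088903360512 * x ^ 8 * y ^ 0 := by
    subst ex ey; unfold dA1 dA0 dA2; ring
  rw [key]; positivity

lemma dA1_high {t : ℝ} (h1 : 21 / 10 ≤ t) : 0 ≤ dA1 t := by
  obtain ⟨x, hx, ex⟩ : ∃ x : ℝ, 0 ≤ x ∧ x = t - 21 / 10 := ⟨_, sub_nonneg.2 h1, rfl⟩
  have key : dA1 t = 7173889 / 1000 + 7262094 / 25 * x + 2133247 / 5 * x ^ 2 + 199416 * x ^ 3 +
      34090 * x ^ 4 := by
    subst ex; unfold dA1; ring
  rw [key]; positivity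

/-- The quadratic in `z` is nonnegative. -/
lemma quad_nonneg {t z : ℝ} (ht : 0 ≤ t) (hz : 0 ≤ z) : 0 ≤ dA0 t + z * dA1 t + z ^ 2 * dA2 t := by
  have h0 := dA0_nonneg t
  have h2 := dA2_pos t
  by_cases hA : 0 ≤ dA1 t
  · positivity
  have hD : 0 ≤ 4 * dA0 t * dA2 t - dA1 t ^ 2 := by
    have ha : 17 / 20 ≤ t := by
      by_contra h
      exact hA (dA1_low (by linarith) (le_of_lt (not_le.1 h)))
    have hb : t ≤ 21 / 10 := by
      by_contra h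
      exact hA (dA1_high (le_of_lt (not_le.1 h)))
    rcases le_total t (59 / 40) with h | h
    · exact disc0 ha h
    rcases le_total t (143 / 80) with h' | h'
    · exact disc1 h h'
    · exact disc2 h' hb
  refine nonneg_of_mul_nonneg_right (a := 4 * dA2 t) ?_ (by linarith)
  nlinarith [sq_nonneg (2 * dA2 t * z + dA1 t)]

theorem diag_ge {r h : ℝ} (hr : 0 ≤ r) (hh : 0 ≤ h) (h1 : h ≤ 1) : r ^ 2 ≤ diag r h := by
  rcases hh.eq_or_lt with rfl | hpos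
  · unfold diag; nlinarith [sq_nonneg r, sq_nonneg (r ^ 2), sq_nonneg (r ^ 3)]
  obtain ⟨e, he, ee⟩ : ∃ e, 0 ≤ e ∧ h ^ 2 + e = 1 := ⟨1 - h ^ 2, by nlinarith, by ring⟩
  have hq : 0 ≤ dA0 (r / h) + e / h ^ 2 * dA1 (r / h) + (e / h ^ 2) ^ 2 * dA2 (r / h) :=
    quad_nonneg (by positivity) (by positivity)
  have hh6 : 0 ≤ h ^ 6 * (dA0 (r / h) + e / h ^ 2 * dA1 (r / h) +
      (e / h ^ 2) ^ 2 * dA2 (r / h)) := mul_nonneg (by positivity) hq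
  have key : h ^ 6 * (dA0 (r / h) + e / h ^ 2 * dA1 (r / h) + (e / h ^ 2) ^ 2 * dA2 (r / h)) =
      (6083 * r ^ 2 * h ^ 4 - 6084 * r ^ 3 * h ^ 3 + 43830 * r ^ 4 * h ^ 2 - 43830 * r ^ 5 * h +
        11472 * r ^ 6) +
      e * (94876 * h ^ 4 - 126000 * r * h ^ 3 + 72350 * r ^ 2 * h ^ 2 - 86940 * r ^ 3 * h +
        34090 * r ^ 4) +
      e ^ 2 * (162909 * h ^ 2 - 126000 * r * h + 48299 * r ^ 2) := by
    unfold dA0 dA1 dA2; field_simp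
  rw [key] at hh6
  have hid : diag r h - r ^ 2 = 42000 * (h ^ 2 + e) ^ 3 +
      (14000 * h ^ 2 - 126000 * r * h + 48299 * r ^ 2) * (h ^ 2 + e) ^ 2 +
      (-56000 * h ^ 4 + 126000 * r * h ^ 3 - 24248 * r ^ 2 * h ^ 2 - 86940 * r ^ 3 * h +
        34090 * r ^ 4) * (h ^ 2 + e) +
      (-17968 * r ^ 2 * h ^ 4 + 80856 * r ^ 3 * h ^ 3 + 9740 * r ^ 4 * h ^ 2 -
        43830 * r ^ 5 * h + 11472 * r ^ 6) := by
    rw [ee]; unfold diag; ring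
  have hz : 0 ≤ e * (e - 3 / 11 * h ^ 2) ^ 2 := by positivity
  nlinarith [mul_nonneg he (pow_nonneg hh 4), mul_nonneg (sq_nonneg e) (sq_nonneg h)]

end

end Vale.Agent.P219.CH.Gen.Ten
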