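import Mathlib

/-!
P219, certificate in dimension ten: nonnegativity on rectangles of edgeS: the symmetrised kernel at `c = 1` over `1 - d`, less a margin, by Bernstein expansions
(generated).
-/

namespace Vale.Agent.P219.CH.Gen.Ten

noncomputable section

/-- See the header. -/
def edgeS (r d : ℝ) : ℝ :=
  47250 + 8750 * d - 47250 * d ^ 2 - 8750 * d ^ 3 - 47250 * r - 15750 * r * d + 47250 * r * d ^
  2 + 15750 * r * d ^ 3 + 135477 / 4 * r ^ 2 + 27191 / 4 * r ^ 2 * d - 29307 * r ^ 2 * d ^ 2 -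
  5277 * r ^ 2 * d ^ 3 - 65205 / 2 * r ^ 3 - 13149 * r ^ 3 * d + 59121 / 2 * r ^ 3 * d ^ 2 +
  10107 * r ^ 3 * d ^ 3 + 29220 * r ^ 4 + 9740 * r ^ 4 * d + 7305 / 2 * r ^ 4 * d ^ 2 + 2435 /
  2 * r ^ 4 * d ^ 3 - 65745 / 4 * r ^ 5 - 21915 * r ^ 5 * d - 21915 / 4 * r ^ 5 * d ^ 2 + 8604
  * r ^ 6 + 2868 * r ^ 6 * d

lemma edgeS_0 {r d : ℝ} (h1 : 0 ≤ r) (h2 : r ≤ 3 / 4) (h3 : 0 ≤ d)
    (h4 : d ≤ 1) : 0 ≤ edgeS r d := by
  obtain ⟨x, hx, ex⟩ : ∃ x : ℝ, 0 ≤ x ∧ x = r - 0 := ⟨_, sub_nonneg.2 h1, rfl⟩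
  obtain ⟨y, hy, ey⟩ : ∃ y : ℝ, 0 ≤ y ∧ y = 3 / 4 - r := ⟨_, sub_nonneg.2 h2, rfl⟩
  obtain ⟨u, hu, eu⟩ : ∃ u : ℝ, 0 ≤ u ∧ u = d - 0 := ⟨_, sub_nonneg.2 h3, rfl⟩
  obtain ⟨w, hw, ew⟩ : ∃ w : ℝ, 0 ≤ w ∧ w = 1 - d := ⟨_, sub_nonneg.2 h4, rfl⟩
  refine nonneg_of_mul_nonneg_right (a := (729 : ℝ)) ?_ (by norm_num)
  have key : (729 : ℝ) * edgeS r d =
      (193536000 * x ^ 0 * y ^ 6 +
        1016064000 * x ^ 1 * y ^ 5 +
        2255314752 * x ^ 2 * y ^ 4 +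
        2675001888 * x ^ 3 * y ^ 3 +
        1788586272 * x ^ 4 * y ^ 2 +
        638345853 * x ^ 5 * y ^ 1 +
        98247033 * x ^ 6 * y ^ 0) *
          (u ^ 0 * w ^ 3) +
      (616448000 * x ^ 0 * y ^ 6 +
        3214848000 * x ^ 1 * y ^ 5 +
        7077286272 * x ^ 2 * y ^ 4 +
        8297892256 * x ^ 3 * y ^ 3 +
        5457949536 * x ^ 4 * y ^ 2 +
        1886585907 * x ^ 5 * y ^ 1 +
        268550075 * x ^ 6 * y ^ 0) *
          (u ^ 1 * w ^ 2) +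
      (458752000 * x ^ 0 * y ^ 6 +
        2365440000 * x ^ 1 * y ^ 5 +
        5143824960 * x ^ 2 * y ^ 4 +
        5932566080 * x ^ 3 * y ^ 3 +
        3851455560 * x ^ 4 * y ^ 2 +
        1309968510 * x ^ 5 * y ^ 1 +
        176940562 * x ^ 6 * y ^ 0) *
          (u ^ 2 * w ^ 1) +
      (14015232 * x ^ 2 * y ^ 4 +
        45547776 * x ^ 3 * y ^ 3 +
        109355616 * x ^ 4 * y ^ 2 +
        95526072 * x ^ 5 * y ^ 1 +
        26066088 * x ^ 6 * y ^ 0) *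
          (u ^ 3 * w ^ 0) := by
    subst ex ey eu ew; unfold edgeS; ring
  rw [key]; positivity

lemma edgeS_1 {r d : ℝ} (h1 : 3 / 4 ≤ r) (h2 : r ≤ 3 / 2) (h3 : 0 ≤ d)
    (h4 : d ≤ 1 / 2) : 0 ≤ edgeS r d := by
  obtain ⟨x, hx, ex⟩ : ∃ x : ℝ, 0 ≤ x ∧ x = r - 3 / 4 := ⟨_, sub_nonneg.2 h1, rfl⟩
  obtain ⟨y, hy, ey⟩ : ∃ y : ℝ, 0 ≤ y ∧ y = 3 / 2 - r := ⟨_, sub_nonneg.2 h2, rfl⟩
  obtain ⟨u, hu, eu⟩ : ∃ u : ℝ, 0 ≤ u ∧ u = d - 0 := ⟨_, sub_nonneg.2 h3, rfl⟩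
  obtain ⟨w, hw, ew⟩ : ∃ w : ℝ, 0 ≤ w ∧ w = 1 / 2 - d := ⟨_, sub_nonneg.2 h4, rfl⟩
  refine nonneg_of_mul_nonneg_right (a := (729 : ℝ)) ?_ (by norm_num)
  have key : (729 : ℝ) * edgeS r d =
      (785976264 * x ^ 0 * y ^ 6 +
        4324948344 * x ^ 1 * y ^ 5 +
        10399597776 * x ^ 2 * y ^ 4 +
        14555035584 * x ^ 3 * y ^ 3 +
        13143949056 * x ^ 4 * y ^ 2 +
        7485561216 * x ^ 5 * y ^ 1 +
        2086200576 * x ^ 6 * y ^ 0) *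
          (u ^ 0 * w ^ 3) +
      (2253164696 * x ^ 0 * y ^ 6 +
        11831482488 * x ^ 1 * y ^ 5 +
        26419776528 * x ^ 2 * y ^ 4 +
        33313672384 * x ^ 3 * y ^ 3 +
        26939391744 * x ^ 4 * y ^ 2 +
        14463209856 * x ^ 5 * y ^ 1 +
        4154930432 * x ^ 6 * y ^ 0) *
          (u ^ 1 * w ^ 2) +
      (2017563622 * x ^ 0 * y ^ 6 +
        10214407698 * x ^ 1 * y ^ 5 +
        21356486556 * x ^ 2 * y ^ 4 +
        23979051536 * x ^ 3 * y ^ 3 +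
        16384661952 * x ^ 4 * y ^ 2 +
        7730542752 * x ^ 5 * y ^ 1 +
        2332551616 * x ^ 6 * y ^ 0) *
          (u ^ 2 * w ^ 1) +
      (569803758 * x ^ 0 * y ^ 6 +
        2907218754 * x ^ 1 * y ^ 5 +
        6091309044 * x ^ 2 * y ^ 4 +
        6659315472 * x ^ 3 * y ^ 3 +
        4079515392 * x ^ 4 * y ^ 2 +
        1556634528 * x ^ 5 * y ^ 1 +
        441082176 * x ^ 6 * y ^ 0) *
          (u ^ 3 * w ^ 0) := by
    subst ex ey eu ew; unfold edgeS; ring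
  rw [key]; positivity

lemma edgeS_2 {r d : ℝ} (h1 : 3 / 4 ≤ r) (h2 : r ≤ 3 / 2) (h3 : 1 / 2 ≤ d)
    (h4 : d ≤ 1) : 0 ≤ edgeS r d := by
  obtain ⟨x, hx, ex⟩ : ∃ x : ℝ, 0 ≤ x ∧ x = r - 3 / 4 := ⟨_, sub_nonneg.2 h1, rfl⟩
  obtain ⟨y, hy, ey⟩ : ∃ y : ℝ, 0 ≤ y ∧ y = 3 / 2 - r := ⟨_, sub_nonneg.2 h2, rfl⟩
  obtain ⟨u, hu, eu⟩ : ∃ u : ℝ, 0 ≤ u ∧ u = d - 1 / 2 := ⟨_, sub_nonneg.2 h3, rfl⟩
  obtain ⟨w, hw, ew⟩ : ∃ w : ℝ, 0 ≤ w ∧ w = 1 - d := ⟨_, sub_nonneg.2 h4, rfl⟩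
  refine nonneg_of_mul_nonneg_right (a := (729 : ℝ)) ?_ (by norm_num)
  have key : (729 : ℝ) * edgeS r d =
      (569803758 * x ^ 0 * y ^ 6 +
        2907218754 * x ^ 1 * y ^ 5 +
        6091309044 * x ^ 2 * y ^ 4 +
        6659315472 * x ^ 3 * y ^ 3 +
        4079515392 * x ^ 4 * y ^ 2 +
        1556634528 * x ^ 5 * y ^ 1 +
        441082176 * x ^ 6 * y ^ 0) *
          (u ^ 0 * w ^ 3) +
      (1401258926 * x ^ 0 * y ^ 6 +
        7228904826 * x ^ 1 * y ^ 5 +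
        15191367708 * x ^ 2 * y ^ 4 +
        15976841296 * x ^ 3 * y ^ 3 +
        8092430400 * x ^ 4 * y ^ 2 +
        1609264416 * x ^ 5 * y ^ 1 +
        313941440 * x ^ 6 * y ^ 0) *
          (u ^ 1 * w ^ 2) +
      (1020555304 * x ^ 0 * y ^ 6 +
        5860476744 * x ^ 1 * y ^ 5 +
        14089538832 * x ^ 2 * y ^ 4 +
        17309251904 * x ^ 3 * y ^ 3 +
        10354928640 * x ^ 4 * y ^ 2 +
        2220653184 * x ^ 5 * y ^ 1 +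
        117710080 * x ^ 6 * y ^ 0) *
          (u ^ 2 * w ^ 1) +
      (208528704 * x ^ 0 * y ^ 6 +
        1738135872 * x ^ 1 * y ^ 5 +
        5744481408 * x ^ 2 * y ^ 4 +
        9430626816 * x ^ 3 * y ^ 3 +
        7832309760 * x ^ 4 * y ^ 2 +
        2971763712 * x ^ 5 * y ^ 1 +
        422111232 * x ^ 6 * y ^ 0) *
          (u ^ 3 * w ^ 0) := by
    subst ex ey eu ew; unfold edgeS; ring
  rw [key]; positivity

lemma edgeS_3 {r d : ℝ} (h1 : 3 / 2 ≤ r) (h2 : r ≤ 9 / 4) (h3 : 0 ≤ d)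
    (h4 : d ≤ 1 / 2) : 0 ≤ edgeS r d := by
  obtain ⟨x, hx, ex⟩ : ∃ x : ℝ, 0 ≤ x ∧ x = r - 3 / 2 := ⟨_, sub_nonneg.2 h1, rfl⟩
  obtain ⟨y, hy, ey⟩ : ∃ y : ℝ, 0 ≤ y ∧ y = 9 / 4 - r := ⟨_, sub_nonneg.2 h2, rfl⟩
  obtain ⟨u, hu, eu⟩ : ∃ u : ℝ, 0 ≤ u ∧ u = d - 0 := ⟨_, sub_nonneg.2 h3, rfl⟩
  obtain ⟨w, hw, ew⟩ : ∃ w : ℝ, 0 ≤ w ∧ w = 1 / 2 - d := ⟨_, sub_nonneg.2 h4, rfl⟩
  refine nonneg_of_mul_nonneg_right (a := (729 : ℝ)) ?_ (by norm_num)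
  have key : (729 : ℝ) * edgeS r d =
      (2086200576 * x ^ 0 * y ^ 6 +
        17548845696 * x ^ 1 * y ^ 5 +
        63460371456 * x ^ 2 * y ^ 4 +
        124966200384 * x ^ 3 * y ^ 3 +
        140367402576 * x ^ 4 * y ^ 2 +
        84924998856 * x ^ 5 * y ^ 1 +
        21576248856 * x ^ 6 * y ^ 0) *
          (u ^ 0 * w ^ 3) +
      (4154930432 * x ^ 0 * y ^ 6 +
        35395955328 * x ^ 1 * y ^ 5 +
        131603119104 * x ^ 2 * y ^ 4 +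
        268461936448 * x ^ 3 * y ^ 3 +
        313209659280 * x ^ 4 * y ^ 2 +
        196833945288 * x ^ 5 * y ^ 1 +
        51883026920 * x ^ 6 * y ^ 0) *
          (u ^ 1 * w ^ 2) +
      (2332551616 * x ^ 0 * y ^ 6 +
        20260076640 * x ^ 1 * y ^ 5 +
        79032331392 * x ^ 2 * y ^ 4 +
        171084792560 * x ^ 3 * y ^ 3 +
        212083031868 * x ^ 4 * y ^ 2 +
        141178592670 * x ^ 5 * y ^ 1 +
        39242808754 * x ^ 6 * y ^ 0) *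
          (u ^ 2 * w ^ 1) +
      (441082176 * x ^ 0 * y ^ 6 +
        3736351584 * x ^ 1 * y ^ 5 +
        14978100672 * x ^ 2 * y ^ 4 +
        34284574704 * x ^ 3 * y ^ 3 +
        45372745620 * x ^ 4 * y ^ 2 +
        32247739854 * x ^ 5 * y ^ 1 +
        9535279290 * x ^ 6 * y ^ 0) *
          (u ^ 3 * w ^ 0) := by
    subst ex ey eu ew; unfold edgeS; ring
  rw [key]; positivity

lemma edgeS_4 {r d : ℝ} (h1 : 3 / 2 ≤ r) (h2 : r ≤ 27 / 16) (h3 : 1 / 2 ≤ d)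
    (h4 : d ≤ 3 / 4) : 0 ≤ edgeS r d := by
  obtain ⟨x, hx, ex⟩ : ∃ x : ℝ, 0 ≤ x ∧ x = r - 3 / 2 := ⟨_, sub_nonneg.2 h1, rfl⟩
  obtain ⟨y, hy, ey⟩ : ∃ y : ℝ, 0 ≤ y ∧ y = 27 / 16 - r := ⟨_, sub_nonneg.2 h2, rfl⟩
  obtain ⟨u, hu, eu⟩ : ∃ u : ℝ, 0 ≤ u ∧ u = d - 1 / 2 := ⟨_, sub_nonneg.2 h3, rfl⟩
  obtain ⟨w, hw, ew⟩ : ∃ w : ℝ, 0 ≤ w ∧ w = 3 / 4 - d := ⟨_, sub_nonneg.2 h4, rfl⟩
  refine nonneg_of_mul_nonneg_right (a := (729 : ℝ)) ?_ (by norm_num)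
  have key : (729 : ℝ) * edgeS r d =
      (14453380743168 * x ^ 0 * y ^ 6 +
        95648405520384 * x ^ 1 * y ^ 5 +
        267406270857216 * x ^ 2 * y ^ 4 +
        403700633788416 * x ^ 3 * y ^ 3 +
        346557584097792 * x ^ 4 * y ^ 2 +
        160131929833152 * x ^ 5 * y ^ 1 +
        31064201776704 * x ^ 6 * y ^ 0) *
          (u ^ 0 * w ^ 3) +
      (26823687667712 * x ^ 0 * y ^ 6 +
        175458185379840 * x ^ 1 * y ^ 5 +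
        488752398925824 * x ^ 2 * y ^ 4 +
        740823721934848 * x ^ 3 * y ^ 3 +
        642781898595840 * x ^ 4 * y ^ 2 +
        301799295950592 * x ^ 5 * y ^ 1 +
        59724656527040 * x ^ 6 * y ^ 0) *
          (u ^ 1 * w ^ 2) +
      (16947933085696 * x ^ 0 * y ^ 6 +
        106406090833920 * x ^ 1 * y ^ 5 +
        287675393851392 * x ^ 2 * y ^ 4 +
        428947603380224 * x ^ 3 * y ^ 3 +
        371196688963200 * x ^ 4 * y ^ 2 +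
        175954973685936 * x ^ 5 * y ^ 1 +
        35490123903280 * x ^ 6 * y ^ 0) *
          (u ^ 2 * w ^ 1) +
      (5303684825088 * x ^ 0 * y ^ 6 +
        31218720768000 * x ^ 1 * y ^ 5 +
        78583842865152 * x ^ 2 * y ^ 4 +
        109141824534528 * x ^ 3 * y ^ 3 +
        88730083095552 * x ^ 4 * y ^ 2 +
        40113708272496 * x ^ 5 * y ^ 1 +
        7857144574512 * x ^ 6 * y ^ 0) *
          (u ^ 3 * w ^ 0) := by
    subst ex ey eu ew; unfold edgeS; ring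
  rw [key]; positivity

lemma edgeS_5 {r d : ℝ} (h1 : 3 / 2 ≤ r) (h2 : r ≤ 27 / 16) (h3 : 3 / 4 ≤ d)
    (h4 : d ≤ 1) : 0 ≤ edgeS r d := by
  obtain ⟨x, hx, ex⟩ : ∃ x : ℝ, 0 ≤ x ∧ x = r - 3 / 2 := ⟨_, sub_nonneg.2 h1, rfl⟩
  obtain ⟨y, hy, ey⟩ : ∃ y : ℝ, 0 ≤ y ∧ y = 27 / 16 - r := ⟨_, sub_nonneg.2 h2, rfl⟩
  obtain ⟨u, hu, eu⟩ : ∃ u : ℝ, 0 ≤ u ∧ u = d - 3 / 4 := ⟨_, sub_nonneg.2 h3, rfl⟩
  obtain ⟨w, hw, ew⟩ : ∃ w : ℝ, 0 ≤ w ∧ w = 1 - d := ⟨_, sub_nonneg.2 h4, rfl⟩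
  refine nonneg_of_mul_nonneg_right (a := (729 : ℝ)) ?_ (by norm_num)
  have key : (729 : ℝ) * edgeS r d =
      (5303684825088 * x ^ 0 * y ^ 6 +
        31218720768000 * x ^ 1 * y ^ 5 +
        78583842865152 * x ^ 2 * y ^ 4 +
        109141824534528 * x ^ 3 * y ^ 3 +
        88730083095552 * x ^ 4 * y ^ 2 +
        40113708272496 * x ^ 5 * y ^ 1 +
        7857144574512 * x ^ 6 * y ^ 0) *
          (u ^ 0 * w ^ 3) +
      (14874175864832 * x ^ 0 * y ^ 6 +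
        80906233774080 * x ^ 1 * y ^ 5 +
        183827663339520 * x ^ 2 * y ^ 4 +
        225903343826944 * x ^ 3 * y ^ 3 +
        161183809610112 * x ^ 4 * y ^ 2 +
        64727275949040 * x ^ 5 * y ^ 1 +
        11652743543792 * x ^ 6 * y ^ 0) *
          (u ^ 1 * w ^ 2) +
      (22676173225984 * x ^ 0 * y ^ 6 +
        124458471260160 * x ^ 1 * y ^ 5 +
        281056937902080 * x ^ 2 * y ^ 4 +
        334735202828288 * x ^ 3 * y ^ 3 +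
        222756139889664 * x ^ 4 * y ^ 2 +
        79343900476800 * x ^ 5 * y ^ 1 +
        12049895808064 * x ^ 6 * y ^ 0) *
          (u ^ 2 * w ^ 1) +
      (13831740850176 * x ^ 0 * y ^ 6 +
        79393368047616 * x ^ 1 * y ^ 5 +
        188067694510080 * x ^ 2 * y ^ 4 +
        235290992836608 * x ^ 3 * y ^ 3 +
        164060122005504 * x ^ 4 * y ^ 2 +
        60556433504256 * x ^ 5 * y ^ 1 +
        9281772260352 * x ^ 6 * y ^ 0) *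
          (u ^ 3 * w ^ 0) := by
    subst ex ey eu ew; unfold edgeS; ring
  rw [key]; positivity

lemma edgeS_6 {r d : ℝ} (h1 : 27 / 16 ≤ r) (h2 : r ≤ 15 / 8) (h3 : 1 / 2 ≤ d)
    (h4 : d ≤ 3 / 4) : 0 ≤ edgeS r d := by
  obtain ⟨x, hx, ex⟩ : ∃ x : ℝ, 0 ≤ x ∧ x = r - 27 / 16 := ⟨_, sub_nonneg.2 h1, rfl⟩
  obtain ⟨y, hy, ey⟩ : ∃ y : ℝ, 0 ≤ y ∧ y = 15 / 8 - r := ⟨_, sub_nonneg.2 h2, rfl⟩
  obtain ⟨u, hu, eu⟩ : ∃ u : ℝ, 0 ≤ u ∧ u = d - 1 / 2 := ⟨_, sub_nonneg.2 h3, rfl⟩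
  obtain ⟨w, hw, ew⟩ : ∃ w : ℝ, 0 ≤ w ∧ w = 3 / 4 - d := ⟨_, sub_nonneg.2 h4, rfl⟩
  refine nonneg_of_mul_nonneg_right (a := (729 : ℝ)) ?_ (by norm_num)
  have key : (729 : ℝ) * edgeS r d =
      (31064201776704 * x ^ 0 * y ^ 6 +
        212638491487296 * x ^ 1 * y ^ 5 +
        609090392368512 * x ^ 2 * y ^ 4 +
        933755129940480 * x ^ 3 * y ^ 3 +
        807438526230528 * x ^ 4 * y ^ 2 +
        373184118051840 * x ^ 5 * y ^ 1 +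
        71985087436800 * x ^ 6 * y ^ 0) *
          (u ^ 0 * w ^ 3) +
      (59724656527040 * x ^ 0 * y ^ 6 +
        414896582373888 * x ^ 1 * y ^ 5 +
        1208268330712320 * x ^ 2 * y ^ 4 +
        1885404673134592 * x ^ 3 * y ^ 3 +
        1660549524059136 * x ^ 4 * y ^ 2 +
        781877879316480 * x ^ 5 * y ^ 1 +
        153638061977600 * x ^ 6 * y ^ 0) *
          (u ^ 1 * w ^ 2) +
      (35490123903280 * x ^ 0 * y ^ 6 +
        249926513153424 * x ^ 1 * y ^ 5 +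
        741054386300640 * x ^ 2 * y ^ 4 +
        1180846785412736 * x ^ 3 * y ^ 3 +
        1063942150599168 * x ^ 4 * y ^ 2 +
        512924185386240 * x ^ 5 * y ^ 1 +
        103212295052800 * x ^ 6 * y ^ 0) *
          (u ^ 2 * w ^ 1) +
      (7857144574512 * x ^ 0 * y ^ 6 +
        54172026621648 * x ^ 1 * y ^ 5 +
        159021674841312 * x ^ 2 * y ^ 4 +
        253293641251968 * x ^ 3 * y ^ 3 +
        229872926034432 * x ^ 4 * y ^ 2 +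
        112252511842560 * x ^ 5 * y ^ 1 +
        22966936051200 * x ^ 6 * y ^ 0) *
          (u ^ 3 * w ^ 0) := by
    subst ex ey eu ew; unfold edgeS; ring
  rw [key]; positivity

lemma edgeS_7 {r d : ℝ} (h1 : 27 / 16 ≤ r) (h2 : r ≤ 15 / 8) (h3 : 3 / 4 ≤ d)
    (h4 : d ≤ 1) : 0 ≤ edgeS r d := by
  obtain ⟨x, hx, ex⟩ : ∃ x : ℝ, 0 ≤ x ∧ x = r - 27 / 16 := ⟨_, sub_nonneg.2 h1, rfl⟩
  obtain ⟨y, hy, ey⟩ : ∃ y : ℝ, 0 ≤ y ∧ y = 15 / 8 - r := ⟨_, sub_nonneg.2 h2, rfl⟩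
  obtain ⟨u, hu, eu⟩ : ∃ u : ℝ, 0 ≤ u ∧ u = d - 3 / 4 := ⟨_, sub_nonneg.2 h3, rfl⟩
  obtain ⟨w, hw, ew⟩ : ∃ w : ℝ, 0 ≤ w ∧ w = 1 - d := ⟨_, sub_nonneg.2 h4, rfl⟩
  refine nonneg_of_mul_nonneg_right (a := (729 : ℝ)) ?_ (by norm_num)
  have key : (729 : ℝ) * edgeS r d =
      (7857144574512 * x ^ 0 * y ^ 6 +
        54172026621648 * x ^ 1 * y ^ 5 +
        159021674841312 * x ^ 2 * y ^ 4 +
        253293641251968 * x ^ 3 * y ^ 3 +
        229872926034432 * x ^ 4 * y ^ 2 +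
        112252511842560 * x ^ 5 * y ^ 1 +
        22966936051200 * x ^ 6 * y ^ 0) *
          (u ^ 0 * w ^ 3) +
      (11652743543792 * x ^ 0 * y ^ 6 +
        75105646576464 * x ^ 1 * y ^ 5 +
        213075662747232 * x ^ 2 * y ^ 4 +
        338915062099072 * x ^ 3 * y ^ 3 +
        315295405607424 * x ^ 4 * y ^ 2 +
        160590885669120 * x ^ 5 * y ^ 1 +
        34589321254400 * x ^ 6 * y ^ 0) *
          (u ^ 1 * w ^ 2) +
      (12049895808064 * x ^ 0 * y ^ 6 +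
        65254849219968 * x ^ 1 * y ^ 5 +
        152310883605504 * x ^ 2 * y ^ 4 +
        201541226507264 * x ^ 3 * y ^ 3 +
        163256034075648 * x ^ 4 * y ^ 2 +
        77211279882240 * x ^ 5 * y ^ 1 +
        16392114380800 * x ^ 6 * y ^ 0) *
          (u ^ 2 * w ^ 1) +
      (9281772260352 * x ^ 0 * y ^ 6 +
        50824833619968 * x ^ 1 * y ^ 5 +
        115402122584064 * x ^ 2 * y ^ 4 +
        140016204693504 * x ^ 3 * y ^ 3 +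
        96875327766528 * x ^ 4 * y ^ 2 +
        36894993776640 * x ^ 5 * y ^ 1 +
        6177344716800 * x ^ 6 * y ^ 0) *
          (u ^ 3 * w ^ 0) := by
    subst ex ey eu ew; unfold edgeS; ring
  rw [key]; positivity

lemma edgeS_8 {r d : ℝ} (h1 : 15 / 8 ≤ r) (h2 : r ≤ 9 / 4) (h3 : 1 / 2 ≤ d)
    (h4 : d ≤ 1) : 0 ≤ edgeS r d := by
  obtain ⟨x, hx, ex⟩ : ∃ x : ℝ, 0 ≤ x ∧ x = r - 15 / 8 := ⟨_, sub_nonneg.2 h1, rfl⟩
  obtain ⟨y, hy, ey⟩ : ∃ y : ℝ, 0 ≤ y ∧ y = 9 / 4 - r := ⟨_, sub_nonneg.2 h2, rfl⟩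
  obtain ⟨u, hu, eu⟩ : ∃ u : ℝ, 0 ≤ u ∧ u = d - 1 / 2 := ⟨_, sub_nonneg.2 h3, rfl⟩
  obtain ⟨w, hw, ew⟩ : ∃ w : ℝ, 0 ≤ w ∧ w = 1 - d := ⟨_, sub_nonneg.2 h4, rfl⟩
  refine nonneg_of_mul_nonneg_right (a := (729 : ℝ)) ?_ (by norm_num)
  have key : (729 : ℝ) * edgeS r d =
      (140595873900 * x ^ 0 * y ^ 6 +
        1072975269060 * x ^ 1 * y ^ 5 +
        3422299545576 * x ^ 2 * y ^ 4 +
        5831668332192 * x ^ 3 * y ^ 3 +
        5594250147840 * x ^ 4 * y ^ 2 +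
        2862701299008 * x ^ 5 * y ^ 1 +
        610257874560 * x ^ 6 * y ^ 0) *
          (u ^ 0 * w ^ 3) +
      (178361057900 * x ^ 0 * y ^ 6 +
        1475329493460 * x ^ 1 * y ^ 5 +
        5072945440296 * x ^ 2 * y ^ 4 +
        9261537818656 * x ^ 3 * y ^ 3 +
        9459610862592 * x ^ 4 * y ^ 2 +
        5123873547840 * x ^ 5 * y ^ 1 +
        1150007487104 * x ^ 6 * y ^ 0) *
          (u ^ 1 * w ^ 2) +
      (27836317600 * x ^ 0 * y ^ 6 +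
        330203801040 * x ^ 1 * y ^ 5 +
        1475514177504 * x ^ 2 * y ^ 4 +
        3284535807104 * x ^ 3 * y ^ 3 +
        3917438308608 * x ^ 4 * y ^ 2 +
        2403306021120 * x ^ 5 * y ^ 1 +
        597449176576 * x ^ 6 * y ^ 0) *
          (u ^ 2 * w ^ 1) +
      (12065126400 * x ^ 0 * y ^ 6 +
        73051205760 * x ^ 1 * y ^ 5 +
        223814520576 * x ^ 2 * y ^ 4 +
        438580786176 * x ^ 3 * y ^ 3 +
        532256274432 * x ^ 4 * y ^ 2 +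
        352488499200 * x ^ 5 * y ^ 1 +
        96051474432 * x ^ 6 * y ^ 0) *
          (u ^ 3 * w ^ 0) := by
    subst ex ey eu ew; unfold edgeS; ring
  rw [key]; positivity

lemma edgeS_9 {r d : ℝ} (h1 : 9 / 4 ≤ r) (h2 : r ≤ 3) (h3 : 0 ≤ d)
    (h4 : d ≤ 1) : 0 ≤ edgeS r d := by
  obtain ⟨x, hx, ex⟩ : ∃ x : ℝ, 0 ≤ x ∧ x = r - 9 / 4 := ⟨_, sub_nonneg.2 h1, rfl⟩
  obtain ⟨y, hy, ey⟩ : ∃ y : ℝ, 0 ≤ y ∧ y = 3 - r := ⟨_, sub_nonneg.2 h2, rfl⟩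
  obtain ⟨u, hu, eu⟩ : ∃ u : ℝ, 0 ≤ u ∧ u = d - 0 := ⟨_, sub_nonneg.2 h3, rfl⟩
  obtain ⟨w, hw, ew⟩ : ∃ w : ℝ, 0 ≤ w ∧ w = 1 - d := ⟨_, sub_nonneg.2 h4, rfl⟩
  refine nonneg_of_mul_nonneg_right (a := (729 : ℝ)) ?_ (by norm_num)
  have key : (729 : ℝ) * edgeS r d =
      (2697031107 * x ^ 0 * y ^ 6 +
        21748748427 * x ^ 1 * y ^ 5 +
        73211543172 * x ^ 2 * y ^ 4 +
        131646610368 * x ^ 3 * y ^ 3 +
        133347580992 * x ^ 4 * y ^ 2 +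
        72136873728 * x ^ 5 * y ^ 1 +
        16282349568 * x ^ 6 * y ^ 0) *
          (u ^ 0 * w ^ 3) +
      (4879663409 * x ^ 0 * y ^ 6 +
        41194349157 * x ^ 1 * y ^ 5 +
        144828325884 * x ^ 2 * y ^ 4 +
        271345627264 * x ^ 3 * y ^ 3 +
        285725797248 * x ^ 4 * y ^ 2 +
        160341360384 * x ^ 5 * y ^ 1 +
        37468457984 * x ^ 6 * y ^ 0) *
          (u ^ 1 * w ^ 2) +
      (1770984238 * x ^ 0 * y ^ 6 +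
        17232612594 * x ^ 1 * y ^ 5 +
        68141533920 * x ^ 2 * y ^ 4 +
        141011492480 * x ^ 3 * y ^ 3 +
        161757176640 * x ^ 4 * y ^ 2 +
        97826970624 * x ^ 5 * y ^ 1 +
        24424379392 * x ^ 6 * y ^ 0) *
          (u ^ 2 * w ^ 1) +
      (187600536 * x ^ 0 * y ^ 6 +
        1999901448 * x ^ 1 * y ^ 5 +
        8830701504 * x ^ 2 * y ^ 4 +
        20428752384 * x ^ 3 * y ^ 3 +
        26033833728 * x ^ 4 * y ^ 2 +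
        17338245120 * x ^ 5 * y ^ 1 +
        4723126272 * x ^ 6 * y ^ 0) *
          (u ^ 3 * w ^ 0) := by
    subst ex ey eu ew; unfold edgeS; ring
  rw [key]; positivity

lemma edgeS_tail {r d : ℝ} (h1 : 3 ≤ r) (h3 : 0 ≤ d)
    (h4 : d ≤ 1) : 0 ≤ edgeS r d := by
  obtain ⟨x, hx, ex⟩ : ∃ x : ℝ, 0 ≤ x ∧ x = r - 3 := ⟨_, sub_nonneg.2 h1, rfl⟩
  obtain ⟨u, hu, eu⟩ : ∃ u : ℝ, 0 ≤ u ∧ u = d - 0 := ⟨_, sub_nonneg.2 h3, rfl⟩
  obtain ⟨w, hw, ew⟩ : ∃ w : ℝ, 0 ≤ w ∧ w = 1 - d := ⟨_, sub_nonneg.2 h4, rfl⟩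
  refine nonneg_of_mul_nonneg_right (a := (4 : ℝ)) ?_ (by norm_num)
  have key : (4 : ℝ) * edgeS r d =
      (15900732 * x ^ 0 + 33277635 * x ^ 1 + 29337597 * x ^ 2 + 13939740 * x ^ 3 + 3776865 * x ^ 4 + 553743 * x ^ 5 + 34416 * x ^ 6) *
          (u ^ 0 * w ^ 3) +
      (36590291 * x ^ 0 + 83944515 * x ^ 1 + 79940738 * x ^ 2 + 40539624 * x ^ 3 + 11603375 * x ^ 4 + 1780065 * x ^ 5 + 114720 * x ^ 6) *
          (u ^ 1 * w ^ 2) +
      (23851933 * x ^ 0 + 63436596 * x ^ 1 + 67687525 * x ^ 2 + 37581240 * x ^ 3 + 11562040 * x ^ 4 + 1876986 * x ^ 5 + 126192 * x ^ 6) *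
          (u ^ 2 * w ^ 1) +
      (4612428 * x ^ 0 + 14323584 * x ^ 1 + 17690108 * x ^ 2 + 11080224 * x ^ 3 + 3740400 * x ^ 4 + 650664 * x ^ 5 + 45888 * x ^ 6) *
          (u ^ 3 * w ^ 0) := by
    subst ex eu ew; unfold edgeS; ring
  rw [key]; positivity

theorem edgeS_nonneg {r d : ℝ} (hr0 : 0 ≤ r) (hd0 : 0 ≤ d) (hd1 : d ≤ 1) :
    0 ≤ edgeS r d := by
  rcases le_total r 3 with h3 | h3
  · rcases le_total r (3 / 2) with h | h
    · rcases le_total r (3 / 4) with h | h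
      · exact edgeS_0 (by linarith) (by linarith) (by linarith) (by linarith)
      · rcases le_total d (1 / 2) with h | h
        · exact edgeS_1 (by linarith) (by linarith) (by linarith) (by linarith)
        · exact edgeS_2 (by linarith) (by linarith) (by linarith) (by linarith)
    · rcases le_total r (9 / 4) with h | h
      · rcases le_total d (1 / 2) with h | h
        · exact edgeS_3 (by linarith) (by linarith) (by linarith) (by linarith)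
        · rcases le_total r (15 / 8) with h | h
          · rcases le_total r (27 / 16) with h | h
            · rcases le_total d (3 / 4) with h | h
              · exact edgeS_4 (by linarith) (by linarith) (by linarith) (by linarith)
              · exact edgeS_5 (by linarith) (by linarith) (by linarith) (by linarith)
            · rcases le_total d (3 / 4) with h | h
              · exact edgeS_6 (by linarith) (by linarith) (by linarith) (by linarith)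
              · exact edgeS_7 (by linarith) (by linarith) (by linarith) (by linarith)
          · exact edgeS_8 (by linarith) (by linarith) (by linarith) (by linarith)
      · exact edgeS_9 (by linarith) (by linarith) (by linarith) (by linarith)
  · exact edgeS_tail h3 hd0 hd1

end

end Vale.Agent.P219.CH.Gen.Ten
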