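import Mathlib

/-!
P219, certificate in dimension ten: nonnegativity on rectangles of the symmetrised kernel at `c d = 0`, less a margin, by Bernstein expansions
(generated).
-/

namespace Vale.Agent.P219.CH.Gen.Ten

noncomputable section

/-- See the header. -/
def s0p (r d : ℝ) : ℝ :=
  38500 + 21000 * d ^ 2 - 63000 * r * d + 46053 * r ^ 2 - 3140 * r ^ 2 * d ^ 2 - 43470 * r ^ 3
  * d + 34090 * r ^ 4 + 4870 * r ^ 4 * d ^ 2 - 21915 * r ^ 5 * d + 11472 * r ^ 6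

lemma s0p_0 {r d : ℝ} (h1 : 0 ≤ r) (h2 : r ≤ 3 / 2) (h3 : 0 ≤ d)
    (h4 : d ≤ 1) : 0 ≤ s0p r d := by
  obtain ⟨x, hx, ex⟩ : ∃ x : ℝ, 0 ≤ x ∧ x = r - 0 := ⟨_, sub_nonneg.2 h1, rfl⟩
  obtain ⟨y, hy, ey⟩ : ∃ y : ℝ, 0 ≤ y ∧ y = 3 / 2 - r := ⟨_, sub_nonneg.2 h2, rfl⟩
  obtain ⟨u, hu, eu⟩ : ∃ u : ℝ, 0 ≤ u ∧ u = d - 0 := ⟨_, sub_nonneg.2 h3, rfl⟩
  obtain ⟨w, hw, ew⟩ : ∃ w : ℝ, 0 ≤ w ∧ w = 1 - d := ⟨_, sub_nonneg.2 h4, rfl⟩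
  refine nonneg_of_mul_nonneg_right (a := (729 : ℝ)) ?_ (by norm_num)
  have key : (729 : ℝ) * s0p r d =
      (2464000 * x ^ 0 * y ^ 6 +
        14784000 * x ^ 1 * y ^ 5 +
        43591632 * x ^ 2 * y ^ 4 +
        75806528 * x ^ 3 * y ^ 3 +
        87794952 * x ^ 4 * y ^ 2 +
        63400848 * x ^ 5 * y ^ 1 +
        28503880 * x ^ 6 * y ^ 0) *
          (u ^ 0 * w ^ 2) +
      (4928000 * x ^ 0 * y ^ 6 +
        23520000 * x ^ 1 * y ^ 5 +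
        56943264 * x ^ 2 * y ^ 4 +
        81743536 * x ^ 3 * y ^ 3 +
        86941344 * x ^ 4 * y ^ 2 +
        57742446 * x ^ 5 * y ^ 1 +
        30919550 * x ^ 6 * y ^ 0) *
          (u ^ 1 * w ^ 1) +
      (3808000 * x ^ 0 * y ^ 6 +
        16800000 * x ^ 1 * y ^ 5 +
        33059472 * x ^ 2 * y ^ 4 +
        31008368 * x ^ 3 * y ^ 3 +
        18171312 * x ^ 4 * y ^ 2 +
        3752718 * x ^ 5 * y ^ 1 +
        4885390 * x ^ 6 * y ^ 0) *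
          (u ^ 2 * w ^ 0) := by
    subst ex ey eu ew; unfold s0p; ring
  rw [key]; positivity

lemma s0p_1 {r d : ℝ} (h1 : 3 / 2 ≤ r) (h2 : r ≤ 3) (h3 : 0 ≤ d)
    (h4 : d ≤ 1) : 0 ≤ s0p r d := by
  obtain ⟨x, hx, ex⟩ : ∃ x : ℝ, 0 ≤ x ∧ x = r - 3 / 2 := ⟨_, sub_nonneg.2 h1, rfl⟩
  obtain ⟨y, hy, ey⟩ : ∃ y : ℝ, 0 ≤ y ∧ y = 3 - r := ⟨_, sub_nonneg.2 h2, rfl⟩
  obtain ⟨u, hu, eu⟩ : ∃ u : ℝ, 0 ≤ u ∧ u = d - 0 := ⟨_, sub_nonneg.2 h3, rfl⟩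
  obtain ⟨w, hw, ew⟩ : ∃ w : ℝ, 0 ≤ w ∧ w = 1 - d := ⟨_, sub_nonneg.2 h4, rfl⟩
  refine nonneg_of_mul_nonneg_right (a := (729 : ℝ)) ?_ (by norm_num)
  have key : (729 : ℝ) * s0p r d =
      (28503880 * x ^ 0 * y ^ 6 +
        278645712 * x ^ 1 * y ^ 5 +
        1164019272 * x ^ 2 * y ^ 4 +
        2651139968 * x ^ 3 * y ^ 3 +
        3464694672 * x ^ 4 * y ^ 2 +
        2460019776 * x ^ 5 * y ^ 1 +
        740950720 * x ^ 6 * y ^ 0) *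
          (u ^ 0 * w ^ 2) +
      (30919550 * x ^ 0 * y ^ 6 +
        313292154 * x ^ 1 * y ^ 5 +
        1364689884 * x ^ 2 * y ^ 4 +
        3251217376 * x ^ 3 * y ^ 3 +
        4454370624 * x ^ 4 * y ^ 2 +
        3322611552 * x ^ 5 * y ^ 1 +
        1053867200 * x ^ 6 * y ^ 0) *
          (u ^ 1 * w ^ 1) +
      (4885390 * x ^ 0 * y ^ 6 +
        54871962 * x ^ 1 * y ^ 5 +
        273767532 * x ^ 2 * y ^ 4 +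
        745915808 * x ^ 3 * y ^ 3 +
        1155396912 * x ^ 4 * y ^ 2 +
        962596896 * x ^ 5 * y ^ 1 +
        337697920 * x ^ 6 * y ^ 0) *
          (u ^ 2 * w ^ 0) := by
    subst ex ey eu ew; unfold s0p; ring
  rw [key]; positivity

lemma s0p_tail {r d : ℝ} (h1 : 3 ≤ r) (h3 : 0 ≤ d)
    (h4 : d ≤ 1) : 0 ≤ s0p r d := by
  obtain ⟨x, hx, ex⟩ : ∃ x : ℝ, 0 ≤ x ∧ x = r - 3 := ⟨_, sub_nonneg.2 h1, rfl⟩
  obtain ⟨u, hu, eu⟩ : ∃ u : ℝ, 0 ≤ u ∧ u = d - 0 := ⟨_, sub_nonneg.2 h3, rfl⟩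
  obtain ⟨w, hw, ew⟩ : ∃ w : ℝ, 0 ≤ w ∧ w = 1 - d := ⟨_, sub_nonneg.2 h4, rfl⟩
  refine nonneg_of_mul_nonneg_right (a := (1 : ℝ)) ?_ (by norm_num)
  have key : (1 : ℝ) * s0p r d =
      (11577355 * x ^ 0 + 20684214 * x ^ 1 + 15825393 * x ^ 2 + 6603960 * x ^ 3 + 1582810 * x ^ 4 + 206496 * x ^ 5 + 11472 * x ^ 6) *
          (u ^ 0 * w ^ 2) +
      (16466675 * x ^ 0 + 31256163 * x ^ 1 + 25342506 * x ^ 2 + 11192100 * x ^ 3 + 2836895 * x ^ 4 + 391077 * x ^ 5 + 22944 * x ^ 6) *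
          (u ^ 1 * w ^ 1) +
      (5276530 * x ^ 0 + 11079069 * x ^ 1 + 9776953 * x ^ 2 + 4646580 * x ^ 3 + 1258955 * x ^ 4 + 184581 * x ^ 5 + 11472 * x ^ 6) *
          (u ^ 2 * w ^ 0) := by
    subst ex eu ew; unfold s0p; ring
  rw [key]; positivity

theorem s0p_nonneg {r d : ℝ} (hr0 : 0 ≤ r) (hd0 : 0 ≤ d) (hd1 : d ≤ 1) :
    0 ≤ s0p r d := by
  rcases le_total r 3 with h3 | h3
  · rcases le_total r (3 / 2) with h | h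
    · exact s0p_0 (by linarith) (by linarith) (by linarith) (by linarith)
    · exact s0p_1 (by linarith) (by linarith) (by linarith) (by linarith)
  · exact s0p_tail h3 hd0 hd1

end

end Vale.Agent.P219.CH.Gen.Ten
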