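import Vale.Agent.P219.CH.Gen.Cert.Ten.Diag
import Vale.Agent.P219.CH.Gen.Cert.Ten.EdgeF
import Vale.Agent.P219.CH.Gen.Cert.Ten.EdgeF2
import Vale.Agent.P219.CH.Gen.Cert.Ten.EdgeS
import Vale.Agent.P219.CH.Gen.Cert.Ten.Zero

/-!
P219, certificate in dimension ten: the symmetrised kernel and the pair inequality.

Everything is scaled by `252000`. The root `m = √(1-c²)√(1-d²)` only enters through
`m ≤ 1 - h²` and `m (1 - h²) ≤ (1 - h²)² + (1 + h²) (c d - h²)`, `h = (c + d)/2`.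
-/

namespace Vale.Agent.P219.CH.Gen.Ten

noncomputable section

/-- The kernel at distance `r` times `252000 r⁶`. -/
def T (r u d m : ℝ) : ℝ :=
  5736 * r ^ 6 + 7000 * (1 - u ^ 2) * (3 + 6 * d ^ 2 - 9 * r * max d 0) +
    r ^ 2 * (4830 - 4492 * u ^ 2) * (5 + 4 * d ^ 2 - 9 * r * max d 0) +
    2435 * r ^ 4 * (7 + 2 * d ^ 2 - 9 * r * max d 0) - 2 * u * (7000 + 4492 * r ^ 2) * |d| * m

/-- The end weight, times `252000`. -/
def g0 (c : ℝ) : ℝ := -(168000 * c + 89600 * c ^ 3 + 102144 * c ^ 5 - 124928 * c ^ 7)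

/-- Minus the sum of two end weights, in `s = c + d`, `p = c d`. -/
def G (s p : ℝ) : ℝ :=
  168000 * s + 89600 * (s ^ 3 - 3 * s * p) +
    102144 * (s ^ 5 - 5 * p * s ^ 3 + 5 * p ^ 2 * s) -
    124928 * (s ^ 7 - 7 * p * s ^ 5 + 14 * p ^ 2 * s ^ 3 - 7 * p ^ 3 * s)

/-- The symmetrised form without the root. -/
def base (r s p : ℝ) : ℝ :=
  42000 + 21000 * (s ^ 2 - 2 * p) - 84000 * p ^ 2 - 63000 * r * (s - p * s) +
    r ^ 2 * (48300 - 3140 * (s ^ 2 - 2 * p) - 35936 * p ^ 2 -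
      9 * r * (4830 * s - 4492 * p * s)) +
    r ^ 4 * (34090 + 4870 * (s ^ 2 - 2 * p) - 21915 * r * s) + 11472 * r ^ 6

/-- The symmetrised form with the root replaced by its tangent in `p`. -/
def Sm (r s p k : ℝ) : ℝ :=
  base r s p - (28000 + 17968 * r ^ 2) * p * ((1 - s ^ 2 / 4) - k * (s ^ 2 / 4 - p))

lemma sum_eq {r c d m : ℝ} (hc : 0 ≤ c) (hd : 0 ≤ d) :
    T r c d m + T r d c m = base r (c + d) (c * d) - (28000 + 17968 * r ^ 2) * (c * d) * m := by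
  unfold T base
  rw [abs_of_nonneg hc, abs_of_nonneg hd, max_eq_left hc, max_eq_left hd]
  ring

lemma g0_add (c d : ℝ) : g0 c + g0 d = -G (c + d) (c * d) := by unfold g0 G; ring

/-- Nonnegativity of a concave quadratic between two points. -/
lemma conc {A B C p lo hi : ℝ} (hC : 0 ≤ C) (h0 : lo ≤ p) (h1 : p ≤ hi)
    (hl : 0 ≤ A + B * lo - C * lo ^ 2) (hh : 0 ≤ A + B * hi - C * hi ^ 2) :
    0 ≤ A + B * p - C * p ^ 2 := by
  rcases (h0.trans h1).eq_or_lt with h | h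
  · have : p = hi := le_antisymm h1 (h ▸ h0)
    rwa [this]
  refine nonneg_of_mul_nonneg_right (a := hi - lo) ?_ (sub_pos.2 h)
  have e : (hi - lo) * (A + B * p - C * p ^ 2) = (hi - p) * (A + B * lo - C * lo ^ 2) +
      (p - lo) * (A + B * hi - C * hi ^ 2) + C * ((p - lo) * (hi - p) * (hi - lo)) := by ring
  rw [e]
  have a := sub_nonneg.2 h0
  have b := sub_nonneg.2 h1
  positivity

/-- The endpoint `c = d`. -/
lemma Sm_diag (r s k : ℝ) : Sm r s (s ^ 2 / 4) k = diag r (s / 2) := by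
  unfold Sm base diag; ring

/-- The endpoint `c = 1`. -/
lemma Sm_edge {r s k : ℝ} (hk : k * (1 - s ^ 2 / 4) = 1 + s ^ 2 / 4) :
    (1 - s ^ 2 / 4) * (Sm r s (s - 1) k - r ^ 2) = (1 - (s - 1)) * edgeS r (s - 1) := by
  unfold Sm base edgeS
  linear_combination (28000 + 17968 * r ^ 2) * (s - 1) * (s ^ 2 / 4 - (s - 1)) * hk

lemma Sm_zero (r s k : ℝ) : Sm r s 0 k = s0p r s + 3500 + 2247 * r ^ 2 := by
  unfold Sm base s0p; ring

/-- Parameters of a pair. -/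
structure Pos (r s p k : ℝ) : Prop where
  r0 : 0 ≤ r
  s0 : 0 ≤ s
  p0 : 0 ≤ p
  ps : s - 1 ≤ p
  ph : p ≤ s ^ 2 / 4
  s2 : s < 2
  hk : k * (1 - s ^ 2 / 4) = 1 + s ^ 2 / 4

lemma Pos.one_sub {r s p k : ℝ} (h : Pos r s p k) : 0 < 1 - s ^ 2 / 4 := by
  nlinarith [h.s0, h.s2]

lemma Pos.k_nonneg {r s p k : ℝ} (h : Pos r s p k) : 0 ≤ k := by
  by_contra hk
  nlinarith [h.one_sub, h.hk, sq_nonneg s]

lemma Sm_lo {r s p k : ℝ} (h : Pos r s p k) :
    r ^ 2 ≤ Sm r s (max 0 (s - 1)) k := by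
  rcases le_total s 1 with h1 | h1
  · rw [max_eq_left (by linarith), Sm_zero]
    nlinarith [s0p_nonneg h.r0 h.s0 h1, sq_nonneg r]
  · rw [max_eq_right (by linarith)]
    have he := edgeS_nonneg (d := s - 1) h.r0 (by linarith) (by linarith [h.s2])
    have h2 := Sm_edge (r := r) h.hk
    by_contra hn
    nlinarith [h.one_sub, mul_nonneg (show 0 ≤ 1 - (s - 1) by linarith [h.s2]) he]

theorem Sm_ge {r s p k : ℝ} (h : Pos r s p k) : r ^ 2 ≤ Sm r s p k := by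
  have hd : r ^ 2 ≤ Sm r s (s ^ 2 / 4) k :=
    Sm_diag r s k ▸ diag_ge h.r0 (by linarith [h.s0]) (by linarith [h.s2])
  have hl := Sm_lo h
  set B := Sm r s 1 k - Sm r s 0 k + (84000 + 35936 * r ^ 2 + (28000 + 17968 * r ^ 2) * k)
  have e : ∀ q, Sm r s q k - r ^ 2 = (Sm r s 0 k - r ^ 2) + B * q -
      (84000 + 35936 * r ^ 2 + (28000 + 17968 * r ^ 2) * k) * q ^ 2 := fun q => by
    simp only [B]; unfold Sm base; ring
  have hC : 0 ≤ 84000 + 35936 * r ^ 2 + (28000 + 17968 * r ^ 2) * k := by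
    have := h.k_nonneg
    positivity
  have := conc hC (max_le h.p0 h.ps) h.ph (by rw [← e]; linarith) (by rw [← e]; linarith)
  rw [← e] at this
  linarith

/-- Below `s = 5/4` the weight is smallest at `c = d`. -/
lemma G_ge {s p : ℝ} (hs : 0 ≤ s) (hs1 : s ≤ 5 / 4) (hp0 : 0 ≤ p) (hp : s - 1 ≤ p)
    (hp1 : p ≤ s ^ 2 / 4) : G s (s ^ 2 / 4) ≤ G s p := by
  set q := s ^ 2 / 4 with hq
  set A := 268800 + 510720 * s ^ 2 - 874496 * s ^ 4 - (510720 - 1748992 * s ^ 2) * q -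
    874496 * q ^ 2 with hA
  have e : G s p - G s q = (q - p) * s *
      (A + (-(510720 - 1748992 * s ^ 2) - 874496 * q) * p - 874496 * p ^ 2) := by
    simp only [G, hA]; ring
  have hh : 0 ≤ A + (-(510720 - 1748992 * s ^ 2) - 874496 * q) * q - 874496 * q ^ 2 := by
    simp only [hA, hq]
    nlinarith [sq_nonneg s, pow_le_pow_left₀ hs hs1 2, sq_nonneg (s ^ 2 - 1)]
  have hl : 0 ≤ A + (-(510720 - 1748992 * s ^ 2) - 874496 * q) * max 0 (s - 1) -
      874496 * max 0 (s - 1) ^ 2 := by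
    rcases le_total s 1 with h1 | h1
    · rw [max_eq_left (by linarith)]
      simp only [hA, hq]
      nlinarith [sq_nonneg s, pow_le_one₀ hs h1 (n := 2), sq_nonneg (s ^ 2 - 1)]
    · rw [max_eq_right (by linarith)]
      simp only [hA, hq]
      nlinarith [mul_nonneg (sub_nonneg.2 h1) (sub_nonneg.2 hs1), sq_nonneg (s - 9 / 8),
        mul_nonneg (mul_nonneg (sub_nonneg.2 h1) (sub_nonneg.2 hs1)) (sq_nonneg (s - 9 / 8))]
  have h := conc (by norm_num : (0 : ℝ) ≤ 874496) (max_le hp0 hp) hp1 hl hh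
  have := mul_nonneg (mul_nonneg (sub_nonneg.2 hp1) hs) h
  linarith

/-- Above `s = 5/4` the weighted end term is concave in `p`. -/
lemma pG_concave {s p : ℝ} (hs : 5 / 4 ≤ s) (hs2 : s ≤ 2) (hp0 : s - 1 ≤ p)
    (hp1 : p ≤ s ^ 2 / 4) :
    (-268800 - 510720 * s ^ 2 + 874496 * s ^ 4) +
      (510720 - 1748992 * s ^ 2) * (p + (s - 1) + s ^ 2 / 4) +
      874496 * (p ^ 2 + (s - 1) ^ 2 + (s ^ 2 / 4) ^ 2 + p * (s - 1) + p * (s ^ 2 / 4) +
        (s - 1) * (s ^ 2 / 4)) ≤ 0 := by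
  set q := s ^ 2 / 4 with hq
  have hl : (-268800 - 510720 * s ^ 2 + 874496 * s ^ 4) +
      (510720 - 1748992 * s ^ 2) * (2 * (s - 1) + q) +
      874496 * (3 * (s - 1) ^ 2 + q ^ 2 + 2 * ((s - 1) * q)) ≤ 0 := by
    simp only [hq]
    nlinarith [mul_nonneg (sub_nonneg.2 hs) (sub_nonneg.2 hs2),
      mul_nonneg (mul_nonneg (sub_nonneg.2 hs) (sub_nonneg.2 hs2)) (sq_nonneg s),
      sq_nonneg (s - 5 / 4)]
  have hh : (-268800 - 510720 * s ^ 2 + 874496 * s ^ 4) +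
      (510720 - 1748992 * s ^ 2) * ((s - 1) + 2 * q) +
      874496 * ((s - 1) ^ 2 + 3 * q ^ 2 + 2 * ((s - 1) * q)) ≤ 0 := by
    simp only [hq]
    nlinarith [mul_nonneg (sub_nonneg.2 hs) (sub_nonneg.2 hs2),
      mul_nonneg (mul_nonneg (sub_nonneg.2 hs) (sub_nonneg.2 hs2)) (sq_nonneg s),
      sq_nonneg (s - 5 / 4)]
  rcases hp1.eq_or_lt with h | h
  · subst h
    linarith
  have e : (q - (s - 1)) * ((-268800 - 510720 * s ^ 2 + 874496 * s ^ 4) +
      (510720 - 1748992 * s ^ 2) * (p + (s - 1) + q) +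
      874496 * (p ^ 2 + (s - 1) ^ 2 + q ^ 2 + p * (s - 1) + p * q + (s - 1) * q)) =
      (q - p) * ((-268800 - 510720 * s ^ 2 + 874496 * s ^ 4) +
        (510720 - 1748992 * s ^ 2) * (2 * (s - 1) + q) +
        874496 * (3 * (s - 1) ^ 2 + q ^ 2 + 2 * ((s - 1) * q))) +
      (p - (s - 1)) * ((-268800 - 510720 * s ^ 2 + 874496 * s ^ 4) +
        (510720 - 1748992 * s ^ 2) * ((s - 1) + 2 * q) +
        874496 * ((s - 1) ^ 2 + 3 * q ^ 2 + 2 * ((s - 1) * q))) -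
      874496 * (p - (s - 1)) * (q - p) * (q - (s - 1)) := by ring
  have hw : 0 < q - (s - 1) := by linarith
  by_contra hn
  have h1 := mul_pos hw (not_le.1 hn)
  rw [e] at h1
  have := mul_nonpos_of_nonneg_of_nonpos (sub_nonneg.2 hp1) hl
  have := mul_nonpos_of_nonneg_of_nonpos (sub_nonneg.2 hp0) hh
  have := mul_nonneg (mul_nonneg (sub_nonneg.2 hp0) (sub_nonneg.2 hp1)) hw.le
  linarith

/-- The quotient of the pair form by `(r - s)²` on `c = d = h`. -/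
def diagQ (r h : ℝ) : ℝ :=
  168000 * h + 89600 * h ^ 3 + 102144 * h ^ 5 - 124928 * h ^ 7 + 42000 * r +
    89600 * r * h ^ 2 + 102144 * r * h ^ 4 - 124928 * r * h ^ 6 + 67200 * r ^ 2 * h +
    76608 * r ^ 2 * h ^ 3 - 93696 * r ^ 2 * h ^ 5 + 48300 * r ^ 3 + 37072 * r ^ 3 * h ^ 2 -
    62464 * r ^ 3 * h ^ 4 + 49420 * r ^ 4 * h - 39040 * r ^ 4 * h ^ 3 + 34090 * r ^ 5 -
    27916 * r ^ 5 * h ^ 2 + 2058 * r ^ 6 * h + 11472 * r ^ 7

lemma diagQ_nonneg {r h : ℝ} (hr : 0 ≤ r) (hh : 0 ≤ h) (h1 : h ≤ 1) : 0 ≤ diagQ r h := by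
  have p2 : h ^ 2 ≤ 1 := pow_le_one₀ hh h1
  have p4 : h ^ 4 ≤ 1 := pow_le_one₀ hh h1
  have a1 : 0 ≤ h * (168000 + 89600 * h ^ 2 + 102144 * h ^ 4 - 124928 * (h ^ 2 * h ^ 4)) :=
    mul_nonneg hh (by nlinarith [sq_nonneg h, pow_nonneg hh 4])
  have a2 : 0 ≤ r * (42000 + 89600 * h ^ 2 + 102144 * h ^ 4 - 124928 * (h ^ 2 * h ^ 4)) :=
    mul_nonneg hr (by nlinarith [sq_nonneg h, pow_nonneg hh 4])
  have a3 : 0 ≤ r ^ 2 * h * (67200 + 76608 * h ^ 2 - 93696 * h ^ 4) :=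
    mul_nonneg (mul_nonneg (sq_nonneg r) hh) (by nlinarith [sq_nonneg h, pow_nonneg hh 4])
  have a4 : 0 ≤ r ^ 3 * (48300 + 37072 * h ^ 2 - 62464 * h ^ 4) :=
    mul_nonneg (pow_nonneg hr 3) (by nlinarith [sq_nonneg h, pow_nonneg hh 4])
  have a5 : 0 ≤ r ^ 4 * h * (49420 - 39040 * h ^ 2) :=
    mul_nonneg (mul_nonneg (pow_nonneg hr 4) hh) (by linarith)
  have a6 : 0 ≤ r ^ 5 * (34090 - 27916 * h ^ 2) := mul_nonneg (pow_nonneg hr 5) (by linarith)
  have a7 : 0 ≤ 2058 * r ^ 6 * h + 11472 * r ^ 7 := by positivity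
  unfold diagQ
  linarith

/-- The pair form. -/
def F (r s p k : ℝ) : ℝ := r ^ 3 * Sm r s p k + 2 * p * G s p - 504000 * p * r

lemma F_diag (r s k : ℝ) : F r s (s ^ 2 / 4) k = (r - s) ^ 2 * diagQ r (s / 2) := by
  rw [F, Sm_diag]; unfold diag G diagQ; ring

theorem F_nonneg {r s p k : ℝ} (h : Pos r s p k) : 0 ≤ F r s p k := by
  have hdiag : 0 ≤ F r s (s ^ 2 / 4) k := F_diag r s k ▸
    mul_nonneg (sq_nonneg _) (diagQ_nonneg h.r0 (by linarith [h.s0]) (by linarith [h.s2]))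
  set C := r ^ 3 * (84000 + 35936 * r ^ 2 + (28000 + 17968 * r ^ 2) * k) with hC
  have hC0 : 0 ≤ C := by have := h.k_nonneg; have := h.r0; positivity
  have hk1 := h.one_sub
  rcases le_total s (5 / 4) with hs | hs
  · have hG := mul_le_mul_of_nonneg_left (G_ge h.s0 hs h.p0 h.ps h.ph) h.p0
    set Gh := G s (s ^ 2 / 4) with hGh
    set B := r ^ 3 * (Sm r s 1 k - Sm r s 0 k) + C + 2 * Gh - 504000 * r with hB
    have e : ∀ q, r ^ 3 * Sm r s q k + 2 * q * Gh - 504000 * q * r =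
        r ^ 3 * Sm r s 0 k + B * q - C * q ^ 2 := fun q => by
      simp only [hB, hC]; unfold Sm base; ring
    have hl : 0 ≤ r ^ 3 * Sm r s 0 k + B * max 0 (s - 1) - C * max 0 (s - 1) ^ 2 := by
      rw [← e]
      rcases le_total s 1 with h1 | h1
      · rw [max_eq_left (by linarith), Sm_zero]
        have := s0p_nonneg h.r0 h.s0 h1
        have := h.r0
        simp only [mul_zero, zero_mul, add_zero, sub_zero]
        positivity
      · rw [max_eq_right (by linarith)]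
        have he := edgeF2_nonneg (d := s - 1) h.r0 (by linarith) (by linarith)
        refine nonneg_of_mul_nonneg_right (a := 1 - s ^ 2 / 4) ?_ hk1
        have : (1 - s ^ 2 / 4) * (r ^ 3 * Sm r s (s - 1) k + 2 * (s - 1) * Gh -
            504000 * (s - 1) * r) = (1 - (s - 1)) * edgeF2 r (s - 1) := by
          simp only [hGh]; unfold G Sm base edgeF2
          linear_combination r ^ 3 * ((28000 + 17968 * r ^ 2) * (s - 1) *
            (s ^ 2 / 4 - (s - 1))) * h.hk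
        rw [this]
        exact mul_nonneg (by linarith) he
    have hh : 0 ≤ r ^ 3 * Sm r s 0 k + B * (s ^ 2 / 4) - C * (s ^ 2 / 4) ^ 2 := by
      rw [← e]; exact hdiag
    have := conc hC0 (max_le h.p0 h.ps) h.ph hl hh
    rw [← e] at this
    unfold F
    linarith
  · have hps : s - 1 ≤ s ^ 2 / 4 := h.ps.trans h.ph
    have hl : 0 ≤ F r s (s - 1) k := by
      have he := edgeF_nonneg (d := s - 1) h.r0 (by linarith) (by linarith [h.s2])
      refine nonneg_of_mul_nonneg_right (a := 1 - s ^ 2 / 4) ?_ hk1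
      have : (1 - s ^ 2 / 4) * F r s (s - 1) k = (1 - (s - 1)) * edgeF r (s - 1) := by
        unfold F G Sm base edgeF
        linear_combination r ^ 3 * ((28000 + 17968 * r ^ 2) * (s - 1) *
          (s ^ 2 / 4 - (s - 1))) * h.hk
      rw [this]
      exact mul_nonneg (by linarith [h.s2]) he
    rcases hps.eq_or_lt with h0 | h0
    · have : p = s ^ 2 / 4 := le_antisymm h.ph (h0 ▸ h.ps)
      rwa [this]
    refine nonneg_of_mul_nonneg_right (a := s ^ 2 / 4 - (s - 1)) ?_ (sub_pos.2 h0)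
    have e : (s ^ 2 / 4 - (s - 1)) * F r s p k =
        (s ^ 2 / 4 - p) * F r s (s - 1) k + (p - (s - 1)) * F r s (s ^ 2 / 4) k +
        (p - (s - 1)) * (s ^ 2 / 4 - p) * (s ^ 2 / 4 - (s - 1)) *
          (C - 2 * s * ((-268800 - 510720 * s ^ 2 + 874496 * s ^ 4) +
            (510720 - 1748992 * s ^ 2) * (p + (s - 1) + s ^ 2 / 4) +
            874496 * (p ^ 2 + (s - 1) ^ 2 + (s ^ 2 / 4) ^ 2 + p * (s - 1) +
              p * (s ^ 2 / 4) + (s - 1) * (s ^ 2 / 4)))) := by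
      simp only [hC]; unfold F G Sm base; ring
    rw [e]
    have hcc := mul_nonpos_of_nonneg_of_nonpos (show 0 ≤ 2 * s by linarith)
      (pG_concave hs h.s2.le h.ps h.ph)
    have a := sub_nonneg.2 h.ps
    have b := sub_nonneg.2 h.ph
    refine add_nonneg (add_nonneg (mul_nonneg b hl) (mul_nonneg a hdiag))
      (mul_nonneg (mul_nonneg (mul_nonneg a b) (sub_nonneg.2 hps)) (by linarith))

/-- What is needed from the root term `√(1-c²) √(1-d²)`. -/
structure RootBound (c d m : ℝ) : Prop where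
  le_mid : m ≤ 1 - ((c + d) / 2) ^ 2
  le_tangent : m * (1 - ((c + d) / 2) ^ 2) ≤
    (1 - ((c + d) / 2) ^ 2) ^ 2 + (1 + ((c + d) / 2) ^ 2) * (c * d - ((c + d) / 2) ^ 2)
  le_mean : m ≤ (2 - c ^ 2 - d ^ 2) / 2

lemma RootBound.le_Sm {r c d m k : ℝ} (hm : RootBound c d m) (hc : 0 ≤ c) (hd : 0 ≤ d)
    (h : Pos r (c + d) (c * d) k) :
    Sm r (c + d) (c * d) k ≤ T r c d m + T r d c m := by
  rw [sum_eq hc hd]
  set s := c + d with hs
  have hm' : m ≤ (1 - s ^ 2 / 4) - k * (s ^ 2 / 4 - c * d) := by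
    refine le_of_mul_le_mul_left ?_ h.one_sub
    have := hm.le_tangent
    rw [show (s / 2) ^ 2 = s ^ 2 / 4 by ring] at this
    have e : (1 - s ^ 2 / 4) * ((1 - s ^ 2 / 4) - k * (s ^ 2 / 4 - c * d)) =
        (1 - s ^ 2 / 4) ^ 2 + (1 + s ^ 2 / 4) * (c * d - s ^ 2 / 4) := by
      linear_combination (c * d - s ^ 2 / 4) * h.hk
    linarith
  have := mul_le_mul_of_nonneg_left hm'
    (show 0 ≤ (28000 + 17968 * r ^ 2) * (c * d) by positivity)
  unfold Sm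
  linarith

lemma pos_of {r c d : ℝ} (hr : 0 ≤ r) (hc : 0 ≤ c) (hc1 : c ≤ 1) (hd : 0 ≤ d) (hd1 : d ≤ 1)
    (h2 : c + d < 2) :
    Pos r (c + d) (c * d) ((1 + (c + d) ^ 2 / 4) / (1 - (c + d) ^ 2 / 4)) := by
  refine ⟨hr, add_nonneg hc hd, mul_nonneg hc hd, ?_, ?_, h2, ?_⟩
  · nlinarith [mul_nonneg (sub_nonneg.2 hc1) (sub_nonneg.2 hd1)]
  · nlinarith [sq_nonneg (c - d)]
  · exact div_mul_cancel₀ _ (by nlinarith : 1 - (c + d) ^ 2 / 4 ≠ 0)

lemma corner {c d m : ℝ} (hm : RootBound c d m) (hc1 : c ≤ 1) (hd1 : d ≤ 1)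
    (h2 : 2 ≤ c + d) : c = 1 ∧ d = 1 ∧ m ≤ 0 := by
  have h1 : c = 1 := by linarith
  have h3 : d = 1 := by linarith
  refine ⟨h1, h3, ?_⟩
  have := hm.le_mid
  rw [h1, h3] at this
  norm_num at this
  exact this

/-- The symmetrised kernel is positive. -/
theorem sum_ge {r c d m : ℝ} (hr : 0 ≤ r) (hc : |c| ≤ 1) (hd : |d| ≤ 1)
    (hm : 0 ≤ c → 0 ≤ d → RootBound c d m) (hm' : m ≤ (2 - c ^ 2 - d ^ 2) / 2) (hm0 : 0 ≤ m) :
    r ^ 2 ≤ T r (max c 0) d m + T r (max d 0) c m := by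
  rw [abs_le] at hc hd
  have mixed : ∀ c d : ℝ, 0 ≤ c → c ≤ 1 → d ≤ 0 → m ≤ (2 - c ^ 2 - d ^ 2) / 2 →
      r ^ 2 ≤ T r c d m + T r 0 c m := by
    intro c d hc hc1 hd hm'
    have h0 := s0p_nonneg hr hc hc1
    unfold T
    rw [abs_of_nonpos hd, max_eq_right hd, max_eq_left hc]
    have hk : c * -d * m ≤ 1 / 4 := by
      have := mul_le_mul_of_nonneg_left hm' (show 0 ≤ c * -d by nlinarith)
      nlinarith [mul_nonneg (mul_nonneg hc (neg_nonneg.2 hd))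
        (sq_nonneg (c + d)), sq_nonneg (c * -d - 1 / 2)]
    have := mul_le_mul_of_nonneg_left hk (show 0 ≤ 2 * (7000 + 4492 * r ^ 2) by positivity)
    have hc2 : c ^ 2 ≤ 1 := pow_le_one₀ hc hc1
    have := mul_nonneg (sub_nonneg.2 hc2) (sq_nonneg d)
    have := mul_nonneg (mul_nonneg (sq_nonneg r) (sq_nonneg d))
      (show 0 ≤ 4830 - 4492 * c ^ 2 by linarith)
    have := mul_nonneg (pow_nonneg hr 4) (sq_nonneg d)
    unfold s0p at h0
    linarith
  rcases le_total 0 c with h | h <;> rcases le_total 0 d with h' | h'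
  · rw [max_eq_left h, max_eq_left h']
    rcases lt_or_ge (c + d) 2 with h2 | h2
    · have hp := pos_of hr h hc.2 h' hd.2 h2
      exact (Sm_ge hp).trans ((hm h h').le_Sm h h' hp)
    · obtain ⟨rfl, rfl, hm1⟩ := corner (hm h h') hc.2 hd.2 h2
      obtain rfl : m = 0 := le_antisymm hm1 hm0
      refine (diag_ge hr zero_le_one le_rfl).trans_eq ?_
      unfold T diag
      rw [max_eq_left (zero_le_one (α := ℝ))]
      simp only [abs_one]
      ring
  · rw [max_eq_left h, max_eq_right h']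
    exact mixed c d h hc.2 h' hm'
  · rw [max_eq_right h, max_eq_left h', add_comm]
    exact mixed d c h' hd.2 h (by linarith)
  · rw [max_eq_right h, max_eq_right h']
    unfold T
    rw [max_eq_right h, max_eq_right h']
    have : 0 ≤ 63000 * (c ^ 2 + d ^ 2) + r ^ 4 * (c ^ 2 + d ^ 2) + r ^ 6 +
        r ^ 2 * (c ^ 2 + d ^ 2) := by positivity
    nlinarith [sq_nonneg r, pow_nonneg hr 4, pow_nonneg hr 6, sq_nonneg (r * c),
      sq_nonneg (r * d), sq_nonneg (r ^ 2 * c), sq_nonneg (r ^ 2 * d), sq_nonneg c, sq_nonneg d]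

/-- The pair inequality. -/
theorem pair {r c d m : ℝ} (hr : 0 ≤ r) (hc : 0 ≤ c) (hc1 : c ≤ 1) (hd : 0 ≤ d) (hd1 : d ≤ 1)
    (hm : RootBound c d m) (hm0 : 0 ≤ m) :
    2 * c * d * (252000 * r + g0 c + g0 d) ≤ r ^ 3 * (T r c d m + T r d c m) := by
  rcases lt_or_ge (c + d) 2 with h2 | h2
  · have hp := pos_of hr hc hc1 hd hd1 h2
    have hF := F_nonneg hp
    have := mul_le_mul_of_nonneg_left (hm.le_Sm hc hd hp) (pow_nonneg hr 3)
    rw [add_assoc, g0_add]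
    unfold F at hF
    linarith
  · obtain ⟨rfl, rfl, hm1⟩ := corner hm hc1 hd1 h2
    obtain rfl : m = 0 := le_antisymm hm1 hm0
    have := mul_nonneg (sq_nonneg (r - 2)) (diagQ_nonneg hr zero_le_one le_rfl)
    unfold T g0
    unfold diagQ at this
    rw [max_eq_left (zero_le_one (α := ℝ))]
    simp only [abs_one]
    linarith

end

end Vale.Agent.P219.CH.Gen.Ten
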